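import Crest.Agent.X212.Sob92.Der
import Crest.Agent.R096.Osc1_802
import Crest.Agent.X212.Sob92.Bas

-- ▼ part X212/Cht98/Ch
section

/-! Row 212, layer AN (helper98): Euclidean charts with a smooth density; push-forward and
pull-back of functions, frame derivatives in a chart, comparison of `L^p` norms. -/

set_option autoImplicit false
set_option linter.unusedSectionVars false

open scoped Manifold ContDiff Topology ENNReal NNReal
open Set Filter Function MeasureTheory

noncomputable section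
namespace Crest.Agent.X212.Cht98
open Crest.Agent.X212.Sob92

variable {E H : Type} [NormedAddCommGroup E] [NormedSpace ℝ E] [TopologicalSpace H]
  {I : ModelWithCorners ℝ E H} {M : Type} [TopologicalSpace M] [ChartedSpace H M]
  [MeasurableSpace M] [BorelSpace M]
  {F : Type} [NormedAddCommGroup F] [InnerProductSpace ℝ F] [FiniteDimensional ℝ F]
  [MeasurableSpace F] [BorelSpace F]
  {V : Type} [NormedAddCommGroup V] [NormedSpace ℝ V]

/-- A smooth chart with values in a Euclidean space in which `μ` has a smooth positive density. -/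
structure Ch (I : ModelWithCorners ℝ E H) (μ : Measure M) (F : Type) [NormedAddCommGroup F]
    [InnerProductSpace ℝ F] [FiniteDimensional ℝ F] [MeasurableSpace F] [BorelSpace F] where
  φ : OpenPartialHomeomorph M F
  sm : ContMDiffOn I 𝓘(ℝ, F) ∞ φ φ.source
  sms : ContMDiffOn 𝓘(ℝ, F) I ∞ φ.symm φ.target
  ρ : F → ℝ
  ρs : ContDiffOn ℝ ∞ ρ φ.target
  ρp : ∀ y ∈ φ.target, 0 < ρ y
  lint : ∀ g : M → ℝ≥0∞, Measurable g →
    ∫⁻ x in φ.source, g x ∂μ = ∫⁻ y in φ.target, ENNReal.ofReal (ρ y) * g (φ.symm y)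

/-- every point lies in a chart with density -/
def Atl (I : ModelWithCorners ℝ E H) (μ : Measure M) (F : Type) [NormedAddCommGroup F]
    [InnerProductSpace ℝ F] [FiniteDimensional ℝ F] [MeasurableSpace F] [BorelSpace F] : Prop :=
  ∀ x : M, ∃ c : Ch I μ F, x ∈ c.φ.source

namespace Ch
variable {μ : Measure M} (c : Ch I μ F)

/-- push-forward of a function, zero off the target -/
def pf (u : M → V) : F → V := c.φ.target.indicator fun y => u (c.φ.symm y)

/-- pull-back of a function, zero off the source -/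
def pb (w : F → V) : M → V := c.φ.source.indicator fun x => w (c.φ x)

theorem pf_of_mem (u : M → V) {y : F} (hy : y ∈ c.φ.target) : c.pf u y = u (c.φ.symm y) :=
  indicator_of_mem hy _

theorem pb_of_mem (w : F → V) {x : M} (hx : x ∈ c.φ.source) : c.pb w x = w (c.φ x) :=
  indicator_of_mem hx _

theorem pf_ev (u : M → V) {y : F} (hy : y ∈ c.φ.target) :
    c.pf u =ᶠ[𝓝 y] fun y => u (c.φ.symm y) := by
  filter_upwards [c.φ.open_target.mem_nhds hy] with z hz using c.pf_of_mem u hz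

theorem pb_ev (w : F → V) {x : M} (hx : x ∈ c.φ.source) :
    c.pb w =ᶠ[𝓝 x] fun x => w (c.φ x) := by
  filter_upwards [c.φ.open_source.mem_nhds hx] with z hz using c.pb_of_mem w hz

theorem smAt {x : M} (hx : x ∈ c.φ.source) : ContMDiffAt I 𝓘(ℝ, F) ∞ c.φ x :=
  c.sm.contMDiffAt (c.φ.open_source.mem_nhds hx)

theorem smsAt {y : F} (hy : y ∈ c.φ.target) : ContMDiffAt 𝓘(ℝ, F) I ∞ c.φ.symm y :=
  c.sms.contMDiffAt (c.φ.open_target.mem_nhds hy)

theorem locAt {u : M → V} {y : F} (hy : y ∈ c.φ.target)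
    (hu : ContMDiffAt I 𝓘(ℝ, V) ∞ u (c.φ.symm y)) :
    ContDiffAt ℝ ∞ (fun y => u (c.φ.symm y)) y :=
  contMDiffAt_iff_contDiffAt.1 (hu.comp y (c.smsAt hy))

theorem loc_on {u : M → V} (hu : ContMDiff I 𝓘(ℝ, V) ∞ u) :
    ContDiffOn ℝ ∞ (fun y => u (c.φ.symm y)) c.φ.target :=
  fun _ hy => (c.locAt hy (hu _)).contDiffWithinAt

theorem pfAt {u : M → V} {y : F} (hy : y ∈ c.φ.target)
    (hu : ContMDiffAt I 𝓘(ℝ, V) ∞ u (c.φ.symm y)) : ContDiffAt ℝ ∞ (c.pf u) y :=
  (c.locAt hy hu).congr_of_eventuallyEq (c.pf_ev u hy)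

theorem pf_on {u : M → V} (hu : ContMDiff I 𝓘(ℝ, V) ∞ u) :
    ContDiffOn ℝ ∞ (c.pf u) c.φ.target :=
  fun _ hy => (c.pfAt hy (hu _)).contDiffWithinAt

theorem img_cpt {K : Set M} (hK : IsCompact K) (hKs : K ⊆ c.φ.source) : IsCompact (c.φ '' K) :=
  hK.image_of_continuousOn (c.φ.continuousOn.mono hKs)

theorem img_sub {K : Set M} (hKs : K ⊆ c.φ.source) : c.φ '' K ⊆ c.φ.target := by
  rintro _ ⟨x, hx, rfl⟩
  exact c.φ.map_source (hKs hx)

theorem simg_cpt {L : Set F} (hL : IsCompact L) (hLs : L ⊆ c.φ.target) :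
    IsCompact (c.φ.symm '' L) :=
  hL.image_of_continuousOn (c.φ.continuousOn_symm.mono hLs)

theorem simg_sub {L : Set F} (hLs : L ⊆ c.φ.target) : c.φ.symm '' L ⊆ c.φ.source := by
  rintro _ ⟨x, hx, rfl⟩
  exact c.φ.map_target (hLs hx)

theorem tsupport_pf {u : M → V} {K : Set M} (hK : IsCompact K) (hKs : K ⊆ c.φ.source)
    (hu : support u ⊆ K) : tsupport (c.pf u) ⊆ c.φ '' K := by
  refine closure_minimal (fun y hy => ?_) (c.img_cpt hK hKs).isClosed
  by_cases h : y ∈ c.φ.target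
  · refine ⟨c.φ.symm y, hu ?_, c.φ.right_inv h⟩
    rwa [mem_support, c.pf_of_mem u h] at hy
  · exact absurd (indicator_of_notMem h _) hy

theorem pf_smooth {u : M → V} {K : Set M} (hK : IsCompact K) (hKs : K ⊆ c.φ.source)
    (hu : support u ⊆ K) (hs : ContMDiff I 𝓘(ℝ, V) ∞ u) : ContDiff ℝ ∞ (c.pf u) := by
  refine contDiff_iff_contDiffAt.2 fun y => ?_
  by_cases h : y ∈ c.φ.target
  · exact c.pfAt h (hs _)
  · have h2 : y ∉ tsupport (c.pf u) := fun h' => h (c.img_sub hKs (c.tsupport_pf hK hKs hu h'))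
    exact contDiffAt_const.congr_of_eventuallyEq (notMem_tsupport_iff_eventuallyEq.1 h2)

theorem tsupport_pb [T2Space M] {w : F → V} {L : Set F} (hL : IsCompact L)
    (hLs : L ⊆ c.φ.target) (hw : support w ⊆ L) : tsupport (c.pb w) ⊆ c.φ.symm '' L := by
  refine closure_minimal (fun x hx => ?_) (c.simg_cpt hL hLs).isClosed
  by_cases h : x ∈ c.φ.source
  · refine ⟨c.φ x, hw ?_, c.φ.left_inv h⟩
    rwa [mem_support, c.pb_of_mem w h] at hx
  · exact absurd (indicator_of_notMem h _) hx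

theorem pbAt {w : F → V} {x : M} (hx : x ∈ c.φ.source) (hw : ContDiffAt ℝ ∞ w (c.φ x)) :
    ContMDiffAt I 𝓘(ℝ, V) ∞ (c.pb w) x :=
  (hw.contMDiffAt.comp x (c.smAt hx)).congr_of_eventuallyEq (c.pb_ev w hx)

theorem pb_smooth [T2Space M] {w : F → V} {L : Set F} (hL : IsCompact L)
    (hLs : L ⊆ c.φ.target) (hw : support w ⊆ L) (hs : ContDiff ℝ ∞ w) :
    ContMDiff I 𝓘(ℝ, V) ∞ (c.pb w) := by
  intro x
  by_cases h : x ∈ c.φ.source
  · exact c.pbAt h hs.contDiffAt
  · have h2 : x ∉ tsupport (c.pb w) := fun h' => h (c.simg_sub hLs (c.tsupport_pb hL hLs hw h'))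
    exact contMDiffAt_const.congr_of_eventuallyEq (notMem_tsupport_iff_eventuallyEq.1 h2)

theorem pb_hcs [T2Space M] {w : F → V} {L : Set F} (hL : IsCompact L)
    (hLs : L ⊆ c.φ.target) (hw : support w ⊆ L) : HasCompactSupport (c.pb w) :=
  (c.simg_cpt hL hLs).of_isClosed_subset (isClosed_tsupport _) (c.tsupport_pb hL hLs hw)

/-! ### vector fields in the chart -/

/-- the components of a vector field in the chart -/
def vf (e : (x : M) → TangentSpace I x) (y : F) : F := dv I e c.φ (c.φ.symm y)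

theorem vf_on [IsManifold I 1 M] {e : (x : M) → TangentSpace I x}
    (he : ContMDiff I I.tangent ∞ (fun x => (⟨x, e x⟩ : TangentBundle I M))) :
    ContDiffOn ℝ ∞ (c.vf e) c.φ.target := fun _ hy =>
  (c.locAt hy (dv_smoothAt (he _) (c.smAt (c.φ.map_target hy)))).contDiffWithinAt

/-- derivative of a pulled back function -/
theorem dv_comp_chart (e : (x : M) → TangentSpace I x) {w : F → V} {x : M}
    (hx : x ∈ c.φ.source) (hw : DifferentiableAt ℝ w (c.φ x)) :
    dv I e (fun x => w (c.φ x)) x = fderiv ℝ w (c.φ x) (c.vf e (c.φ x)) := by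
  rw [vf, c.φ.left_inv hx]
  exact dv_comp ((c.smAt hx).mdifferentiableAt (by simp)) hw.hasFDerivAt

/-- the frame derivative in the chart -/
theorem dv_chart (e : (x : M) → TangentSpace I x) {u : M → V} {y : F} (hy : y ∈ c.φ.target)
    (hu : ContMDiffAt I 𝓘(ℝ, V) ∞ u (c.φ.symm y)) :
    dv I e u (c.φ.symm y) = fderiv ℝ (c.pf u) y (c.vf e y) := by
  have hx := c.φ.map_target hy
  have h1 : u =ᶠ[𝓝 (c.φ.symm y)] fun x => c.pf u (c.φ x) := by
    filter_upwards [c.φ.open_source.mem_nhds hx] with z hz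
    rw [c.pf_of_mem u (c.φ.map_source hz), c.φ.left_inv hz]
  rw [dv_congr h1, c.dv_comp_chart e hx, c.φ.right_inv hy]
  rw [c.φ.right_inv hy]
  exact (c.pfAt hy hu).differentiableAt (by simp)

theorem dv_pb (e : (x : M) → TangentSpace I x) {w : F → V} {y : F} (hy : y ∈ c.φ.target)
    (hw : DifferentiableAt ℝ w y) :
    dv I e (c.pb w) (c.φ.symm y) = fderiv ℝ w y (c.vf e y) := by
  have hx := c.φ.map_target hy
  rw [dv_congr (c.pb_ev w hx), c.dv_comp_chart e hx, c.φ.right_inv hy]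
  rwa [c.φ.right_inv hy]

theorem mfderiv_surj {y : F} (hy : y ∈ c.φ.target) :
    Surjective (mfderiv I 𝓘(ℝ, F) c.φ (c.φ.symm y)) := by
  have hx := c.φ.map_target hy
  have h1 := ((c.smAt hx).mdifferentiableAt (by simp)).hasMFDerivAt.comp y
    ((c.smsAt hy).mdifferentiableAt (by simp)).hasMFDerivAt
  have h2 : (c.φ ∘ c.φ.symm) =ᶠ[𝓝 y] id := by
    filter_upwards [c.φ.open_target.mem_nhds hy] with z hz using c.φ.right_inv hz
  have h3 := h1.mfderiv
  rw [h2.mfderiv_eq, mfderiv_id] at h3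
  intro v
  exact ⟨mfderiv 𝓘(ℝ, F) I c.φ.symm y v,
    (congrArg (fun L : F →L[ℝ] F => L v) h3).symm⟩

theorem vf_span {ι : Type} {e : ι → (x : M) → TangentSpace I x}
    (hsp : ∀ x, Submodule.span ℝ (range fun a => e a x) = ⊤) {y : F} (hy : y ∈ c.φ.target) :
    Submodule.span ℝ (range fun a => c.vf (e a) y) = ⊤ := by
  let L : TangentSpace I (c.φ.symm y) →ₗ[ℝ] F :=
    (mfderiv I 𝓘(ℝ, F) c.φ (c.φ.symm y)).toLinearMap
  have h1 : (range fun a => c.vf (e a) y) = L '' range fun a => e a (c.φ.symm y) := by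
    rw [← range_comp]; rfl
  rw [h1, Submodule.span_image, hsp, Submodule.map_top, LinearMap.range_eq_top]
  exact c.mfderiv_surj hy

end Ch

/-- a continuous spanning family controls linear maps uniformly on compact sets -/
theorem span_bound {X ι : Type} [TopologicalSpace X] [Fintype ι] {w : ι → X → F} {L : Set X}
    (hL : IsCompact L) (hw : ∀ a, ContinuousOn (w a) L)
    (hsp : ∀ y ∈ L, Submodule.span ℝ (range fun a => w a y) = ⊤) :
    ∃ C : ℝ≥0, ∀ y ∈ L, ∀ (V : Type) [NormedAddCommGroup V] [NormedSpace ℝ V]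
      (T : F →L[ℝ] V), ‖T‖ ≤ C * ∑ a, ‖T (w a y)‖ := by
  let S : Set (F →L[ℝ] ℝ) := Metric.sphere 0 1
  have hS : IsCompact S := isCompact_sphere _ _
  let G : X × (F →L[ℝ] ℝ) → ℝ := fun p => ∑ a, ‖p.2 (w a p.1)‖
  have hG : ContinuousOn G (L ×ˢ S) := by
    refine continuousOn_finsetSum _ fun a _ => ContinuousOn.norm ?_
    exact continuous_snd.continuousOn.clm_apply
      ((hw a).comp continuous_fst.continuousOn fun p hp => hp.1)
  have hpos : ∀ p ∈ L ×ˢ S, 0 < G p := by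
    rintro ⟨y, T⟩ ⟨hy, hT⟩
    refine lt_of_le_of_ne (Finset.sum_nonneg fun _ _ => norm_nonneg _) fun h => ?_
    have h0 : ∀ a, T (w a y) = 0 := fun a => norm_eq_zero.1
      ((Finset.sum_eq_zero_iff_of_nonneg fun _ _ => norm_nonneg _).1 h.symm a (Finset.mem_univ a))
    have h1 : T = 0 := by
      apply ContinuousLinearMap.coe_injective
      refine LinearMap.ext_on_range (hsp y hy) fun a => ?_
      simpa using h0 a
    have h2 : ‖T‖ = 1 := by simpa [S] using hT
    rw [h1, norm_zero] at h2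
    exact zero_ne_one h2
  obtain ⟨m, hm, hmG⟩ := (hL.prod hS).exists_forall_le' hG hpos
  have key : ∀ y ∈ L, ∀ T : F →L[ℝ] ℝ, m * ‖T‖ ≤ ∑ a, ‖T (w a y)‖ := by
    intro y hy T
    rcases eq_or_ne T 0 with rfl | h0
    · simp
    have hp : 0 < ‖T‖ := norm_pos_iff.2 h0
    have h1 := hmG (y, ‖T‖⁻¹ • T) ⟨hy, by simp [S, norm_smul, hp.ne']⟩
    have h2 : G (y, ‖T‖⁻¹ • T) = ‖T‖⁻¹ * ∑ a, ‖T (w a y)‖ := by
      simp [G, Finset.mul_sum]
    rw [h2] at h1
    calc m * ‖T‖ ≤ (‖T‖⁻¹ * ∑ a, ‖T (w a y)‖) * ‖T‖ := by gcongr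
      _ = _ := by field_simp
  refine ⟨⟨m⁻¹, by positivity⟩, fun y hy V _ _ T => ?_⟩
  show ‖T‖ ≤ m⁻¹ * ∑ a, ‖T (w a y)‖
  refine ContinuousLinearMap.opNorm_le_bound _ (by positivity) fun v => ?_
  obtain ⟨g, hg1, hg2⟩ := exists_dual_vector'' ℝ (T v)
  have h1 := key y hy (g.comp T)
  have h2 : ∑ a, ‖(g.comp T) (w a y)‖ ≤ ∑ a, ‖T (w a y)‖ :=
    Finset.sum_le_sum fun a _ => (g.le_opNorm _).trans (mul_le_of_le_one_left (norm_nonneg _) hg1)
  have h3 : ‖g.comp T‖ ≤ m⁻¹ * ∑ a, ‖T (w a y)‖ := by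
    rw [← div_eq_inv_mul, le_div_iff₀ hm, mul_comm]
    exact h1.trans h2
  calc ‖T v‖ = (g.comp T) v := by simpa using hg2.symm
    _ ≤ ‖g.comp T‖ * ‖v‖ := (le_abs_self _).trans ((g.comp T).le_opNorm v)
    _ ≤ _ := by gcongr

namespace Ch
variable {μ : Measure M} (c : Ch I μ F)

/-! ### measures -/

/-- Lebesgue measure of the chart, on `M` -/
def ν : Measure M := ((volume : Measure F).restrict c.φ.target).map c.φ.symm

theorem aem : AEMeasurable c.φ.symm ((volume : Measure F).restrict c.φ.target) :=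
  c.φ.continuousOn_symm.aemeasurable c.φ.open_target.measurableSet

theorem ρ_aem : AEMeasurable (fun y => ENNReal.ofReal (c.ρ y))
    ((volume : Measure F).restrict c.φ.target) :=
  (c.ρs.continuousOn.aemeasurable c.φ.open_target.measurableSet).ennreal_ofReal

theorem restrict_eq : μ.restrict c.φ.source =
    (((volume : Measure F).restrict c.φ.target).withDensity
      fun y => ENNReal.ofReal (c.ρ y)).map c.φ.symm := by
  have ha : AEMeasurable c.φ.symm (((volume : Measure F).restrict c.φ.target).withDensity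
      fun y => ENNReal.ofReal (c.ρ y)) := c.aem.mono_ac (withDensity_absolutelyContinuous _ _)
  ext s hs
  have hm : Measurable (s.indicator (1 : M → ℝ≥0∞)) := measurable_one.indicator hs
  rw [← lintegral_indicator_one hs, ← lintegral_indicator_one hs, c.lint _ hm,
    lintegral_map' hm.aemeasurable ha,
    lintegral_withDensity_eq_lintegral_mul₀ c.ρ_aem (hm.comp_aemeasurable' c.aem)]
  rfl

/-- Bochner integrals in the chart -/
theorem integral_eq {g : M → V} (hg : AEStronglyMeasurable g (μ.restrict c.φ.source)) :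
    ∫ x in c.φ.source, g x ∂μ = ∫ y in c.φ.target, c.ρ y • g (c.φ.symm y) := by
  have ha : AEMeasurable c.φ.symm (((volume : Measure F).restrict c.φ.target).withDensity
      fun y => ENNReal.ofReal (c.ρ y)) := c.aem.mono_ac (withDensity_absolutelyContinuous _ _)
  rw [c.restrict_eq] at hg ⊢
  rw [integral_map ha hg]
  have h1 : AEMeasurable (fun y => (c.ρ y).toNNReal) ((volume : Measure F).restrict c.φ.target) :=
    (c.ρs.continuousOn.aemeasurable c.φ.open_target.measurableSet).real_toNNReal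
  have h2 := integral_withDensity_eq_integral_smul₀ h1 (fun y => g (c.φ.symm y))
  refine h2.trans (setIntegral_congr_fun c.φ.open_target.measurableSet fun y hy => ?_)
  show (c.ρ y).toNNReal • g (c.φ.symm y) = _
  rw [NNReal.smul_def, Real.coe_toNNReal _ (c.ρp y hy).le]

theorem ν_apply {s : Set M} (hs : MeasurableSet s) :
    c.ν s = ∫⁻ y in c.φ.target, s.indicator (1 : M → ℝ≥0∞) (c.φ.symm y) := by
  have hm : Measurable (s.indicator (1 : M → ℝ≥0∞)) := measurable_one.indicator hs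
  rw [← lintegral_indicator_one hs, ν, lintegral_map' hm.aemeasurable c.aem]

theorem μ_apply {s : Set M} (hs : MeasurableSet s) (h : s ⊆ c.φ.source) :
    μ s = ∫⁻ y in c.φ.target, ENNReal.ofReal (c.ρ y) *
      s.indicator (1 : M → ℝ≥0∞) (c.φ.symm y) := by
  rw [← c.lint _ (measurable_one.indicator hs), lintegral_indicator_one hs,
    Measure.restrict_apply hs, inter_eq_left.2 h]

/-- comparison of `μ` with the Lebesgue measure of the chart on a compact set -/
theorem cmp [T2Space M] {K : Set M} (hK : IsCompact K) (hKs : K ⊆ c.φ.source) :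
    ∃ C : ℝ≥0, μ.restrict K ≤ C • c.ν.restrict K ∧ c.ν.restrict K ≤ C • μ.restrict K := by
  have hc := c.ρs.continuousOn.mono (c.img_sub hKs)
  obtain ⟨m, hm, hm'⟩ := (c.img_cpt hK hKs).exists_forall_le' hc
    fun y hy => c.ρp y (c.img_sub hKs hy)
  obtain ⟨A, hA⟩ := (c.img_cpt hK hKs).exists_bound_of_continuousOn hc
  have hmem : ∀ s : Set M, ∀ y ∈ c.φ.target, c.φ.symm y ∈ s ∩ K → y ∈ c.φ '' K :=
    fun s y hy h => ⟨_, h.2, c.φ.right_inv hy⟩
  refine ⟨(max A m⁻¹).toNNReal, Measure.le_iff.2 fun s hs => ?_, Measure.le_iff.2 fun s hs => ?_⟩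
  · have hsK := hs.inter hK.measurableSet
    rw [Measure.coe_nnreal_smul_apply, Measure.restrict_apply hs, Measure.restrict_apply hs,
      c.ν_apply hsK, c.μ_apply hsK (inter_subset_right.trans hKs),
      ← lintegral_const_mul' _ _ ENNReal.coe_ne_top]
    refine setLIntegral_mono' c.φ.open_target.measurableSet fun y hy => ?_
    by_cases h : c.φ.symm y ∈ s ∩ K
    · gcongr
      exact ENNReal.ofReal_le_ofReal
        (((le_abs_self _).trans (hA y (hmem s y hy h))).trans (le_max_left _ _))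
    · simp [indicator_of_notMem h]
  · have hsK := hs.inter hK.measurableSet
    rw [Measure.coe_nnreal_smul_apply, Measure.restrict_apply hs, Measure.restrict_apply hs,
      c.ν_apply hsK, c.μ_apply hsK (inter_subset_right.trans hKs),
      ← lintegral_const_mul' _ _ ENNReal.coe_ne_top]
    refine setLIntegral_mono' c.φ.open_target.measurableSet fun y hy => ?_
    by_cases h : c.φ.symm y ∈ s ∩ K
    · rw [← mul_assoc]
      refine le_mul_of_one_le_left' ?_
      have h1 : (1 : ℝ) ≤ max A m⁻¹ * c.ρ y := by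
        calc (1 : ℝ) = m⁻¹ * m := (inv_mul_cancel₀ hm.ne').symm
          _ ≤ _ := mul_le_mul (le_max_right _ _) (hm' y (hmem s y hy h)) hm.le
            (le_max_of_le_right (by positivity))
      calc (1 : ℝ≥0∞) = ENNReal.ofReal 1 := by simp
        _ ≤ ENNReal.ofReal (max A m⁻¹ * c.ρ y) := ENNReal.ofReal_le_ofReal h1
        _ = _ := ENNReal.ofReal_mul (le_max_of_le_right (by positivity))
    · simp [indicator_of_notMem h]

theorem eLp_ν {g : M → ℝ} (hg : Measurable g) (p : ℝ≥0∞) :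
    eLpNorm g p c.ν = eLpNorm (c.pf g) p volume := by
  rw [ν, eLpNorm_map_measure hg.aestronglyMeasurable c.aem, pf,
    eLpNorm_indicator_eq_eLpNorm_restrict c.φ.open_target.measurableSet]
  rfl

theorem norm_pf (u : M → V) (y : F) : ‖c.pf u y‖ = c.pf (fun x => ‖u x‖) y := by
  by_cases h : y ∈ c.φ.target
  · rw [c.pf_of_mem _ h, c.pf_of_mem _ h]
  · simp [pf, indicator_of_notMem h]

/-- comparison of `L^p` norms for functions supported in a compact subset of the chart -/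
theorem eLp_cmp [T2Space M] {K : Set M} (hK : IsCompact K) (hKs : K ⊆ c.φ.source) (p : ℝ≥0∞) :
    ∃ C : ℝ≥0, ∀ (V : Type) [NormedAddCommGroup V] [NormedSpace ℝ V] (g : M → V),
      Measurable (fun x => ‖g x‖) → support g ⊆ K →
      eLpNorm g p μ ≤ C * eLpNorm (c.pf g) p volume ∧
        eLpNorm (c.pf g) p volume ≤ C * eLpNorm g p μ := by
  obtain ⟨C, h1, h2⟩ := c.cmp hK hKs
  refine ⟨C ^ (1 / p).toReal, fun V _ _ g hg hs => ?_⟩
  have hs' : support (fun x => ‖g x‖) ⊆ K := fun x hx => hs (by simpa using hx)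
  have e1 : eLpNorm (c.pf g) p volume = eLpNorm (fun x => ‖g x‖) p (c.ν.restrict K) := by
    rw [eLpNorm_restrict_eq_of_support_subset hs', c.eLp_ν hg, ← eLpNorm_norm]
    exact congrArg (fun f => eLpNorm f p volume) (funext fun y => c.norm_pf g y)
  have e2 : eLpNorm g p μ = eLpNorm (fun x => ‖g x‖) p (μ.restrict K) := by
    rw [eLpNorm_restrict_eq_of_support_subset hs', eLpNorm_norm]
  have key : ∀ m1 m2 : Measure M, m1 ≤ C • m2 → eLpNorm (fun x => ‖g x‖) p m1 ≤
      (C ^ (1 / p).toReal : ℝ≥0) * eLpNorm (fun x => ‖g x‖) p m2 := by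
    intro m1 m2 h
    refine (eLpNorm_mono_measure _ h).trans ?_
    have h3 := eLpNorm_smul_measure_le (C : ℝ≥0∞) (fun x => ‖g x‖) p m2
    rw [ENNReal.coe_rpow_of_nonneg _ ENNReal.toReal_nonneg]
    exact h3
  rw [e1, e2]
  exact ⟨key _ _ h1, key _ _ h2⟩

end Ch

theorem Atl.openPos {μ : Measure M} (h : Atl I μ F) : μ.IsOpenPosMeasure := by
  refine ⟨fun U hU ⟨x, hx⟩ h0 => ?_⟩
  obtain ⟨c, hc⟩ := h x
  have hW : IsOpen (U ∩ c.φ.source) := hU.inter c.φ.open_source
  have h1 : μ (U ∩ c.φ.source) = 0 := measure_mono_null inter_subset_left h0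
  rw [c.μ_apply hW.measurableSet inter_subset_right] at h1
  have hT : IsOpen (c.φ.target ∩ c.φ.symm ⁻¹' (U ∩ c.φ.source)) :=
    c.φ.isOpen_inter_preimage_symm hW
  have hm : Measurable ((U ∩ c.φ.source).indicator (1 : M → ℝ≥0∞)) :=
    measurable_one.indicator hW.measurableSet
  replace h1 := (lintegral_eq_zero_iff' (c.ρ_aem.mul (hm.comp_aemeasurable' c.aem))).1 h1
  rw [EventuallyEq, ae_restrict_iff' c.φ.open_target.measurableSet] at h1
  have h2 : (volume : Measure F) (c.φ.target ∩ c.φ.symm ⁻¹' (U ∩ c.φ.source)) = 0 := by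
    refine measure_mono_null (fun y hy => ?_) h1
    intro h3
    have h4 := h3 hy.1
    have h5 : c.φ.symm y ∈ U ∩ c.φ.source := hy.2
    simp only [Pi.mul_apply, indicator_of_mem h5, Pi.one_apply, mul_one, Pi.zero_apply,
      ENNReal.ofReal_eq_zero] at h4
    exact absurd (c.ρp y hy.1) (not_lt.2 h4)
  refine hT.measure_ne_zero _ ⟨c.φ x, c.φ.map_source hc, ?_⟩ h2
  show c.φ.symm (c.φ x) ∈ U ∩ c.φ.source
  rw [c.φ.left_inv hc]
  exact ⟨hx, hc⟩

theorem Atl.finCpt [T2Space M] {μ : Measure M} (h : Atl I μ F) : IsLocallyFiniteMeasure μ := by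
  refine ⟨fun x => ?_⟩
  obtain ⟨c, hc⟩ := h x
  obtain ⟨L, hL, hL1, hL2⟩ := exists_compact_subset c.φ.open_target (c.φ.map_source hc)
  have hK := c.simg_cpt hL hL2
  obtain ⟨C, h1, -⟩ := c.cmp hK (c.simg_sub hL2)
  refine ⟨c.φ.symm '' L, ?_, ?_⟩
  · have h2 := c.φ.symm.image_mem_nhds (c.φ.map_source hc) (mem_interior_iff_mem_nhds.1 hL1)
    rwa [c.φ.left_inv hc] at h2
  · have h2 := h1 (c.φ.symm '' L)
    rw [Measure.coe_nnreal_smul_apply, Measure.restrict_apply_self,
      Measure.restrict_apply_self, c.ν_apply hK.measurableSet] at h2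
    refine h2.trans_lt (ENNReal.mul_lt_top ENNReal.coe_lt_top ?_)
    refine lt_of_le_of_lt (b := ∫⁻ y in c.φ.target, L.indicator 1 y) ?_ ?_
    · refine setLIntegral_mono' c.φ.open_target.measurableSet fun y hy => ?_
      by_cases h3 : c.φ.symm y ∈ c.φ.symm '' L
      · obtain ⟨z, hz, hzy⟩ := h3
        have h4 : z = y := c.φ.symm.injOn (hL2 hz) hy hzy
        rw [indicator_of_mem (show y ∈ L from h4 ▸ hz)]
        exact indicator_le_self' (fun _ _ => zero_le) _
      · simp [indicator_of_notMem h3]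
    · rw [lintegral_indicator_one hL.measurableSet]
      exact (Measure.restrict_le_self L).trans_lt hL.measure_lt_top

end Crest.Agent.X212.Cht98
end
end

-- ▼ part X212/Cht98/Sob
section

/-! Row 212, layer AN (helper98): first order Sobolev inequalities, in a Euclidean space of
dimension `≤ 4` and on compact subsets of a manifold with a spanning frame. -/

set_option autoImplicit false
set_option linter.unusedSectionVars false

open scoped Manifold ContDiff Topology ENNReal NNReal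
open Set Filter Function MeasureTheory Metric

noncomputable section
namespace Crest.Agent.X212.Cht98
open Crest.Agent.X212.Sob92

variable {E H : Type} [NormedAddCommGroup E] [NormedSpace ℝ E] [TopologicalSpace H]
  {I : ModelWithCorners ℝ E H} {M : Type} [TopologicalSpace M] [ChartedSpace H M]
  [MeasurableSpace M] [BorelSpace M]
  {F : Type} [NormedAddCommGroup F] [InnerProductSpace ℝ F] [FiniteDimensional ℝ F]
  [MeasurableSpace F] [BorelSpace F]

/-- Hölder on a set of finite measure -/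
theorem holder {α : Type} [MeasurableSpace α] {μ : Measure α} {s : Set α} (hs : μ s ≠ ⊤)
    {p q : ℝ≥0∞} (hp : 1 ≤ p) (hpq : p ≤ q) : ∃ C : ℝ≥0, ∀ (V : Type) [NormedAddCommGroup V]
      (g : α → V), AEStronglyMeasurable g μ → support g ⊆ s →
      eLpNorm g p μ ≤ C * eLpNorm g q μ := by
  have he : 0 ≤ 1 / p.toReal - 1 / q.toReal := by
    by_cases hq : q = ⊤
    · subst hq; simp
    · have hp' : p ≠ ⊤ := ne_top_of_le_ne_top hq hpq
      have h1 : 0 < p.toReal := ENNReal.toReal_pos (zero_lt_one.trans_le hp).ne' hp'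
      exact sub_nonneg.2 (one_div_le_one_div_of_le h1 (ENNReal.toReal_mono hq hpq))
  refine ⟨(μ s ^ (1 / p.toReal - 1 / q.toReal)).toNNReal, fun V _ g hg hgs => ?_⟩
  rw [ENNReal.coe_toNNReal (ENNReal.rpow_ne_top_of_nonneg he hs),
    ← eLpNorm_restrict_eq_of_support_subset hgs (p := p),
    ← eLpNorm_restrict_eq_of_support_subset hgs (p := q), mul_comm]
  have h := eLpNorm_le_eLpNorm_mul_rpow_measure_univ (μ := μ.restrict s) hpq hg.restrict
  rwa [Measure.restrict_apply_univ] at h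

variable (F) in
/-- the Euclidean Sobolev inequality `W^{1,p} ⊆ L^q` for compact supports -/
def ES (q p : ℝ≥0∞) : Prop := ∀ s : Set F, IsCompact s → ∃ C : ℝ≥0, ∀ w : F → ℝ,
  ContDiff ℝ ∞ w → support w ⊆ s →
    eLpNorm w q volume ≤ C * (eLpNorm w p volume + eLpNorm (fderiv ℝ w) p volume)

theorem ES.mono {q p q' p' : ℝ≥0∞} (h : ES F q p) (hq' : 1 ≤ q') (hq : q' ≤ q) (hp1 : 1 ≤ p)
    (hp : p ≤ p') : ES F q' p' := by
  intro s hs
  obtain ⟨C, hC⟩ := h s hs
  obtain ⟨C1, h1⟩ := holder (μ := (volume : Measure F)) hs.measure_lt_top.ne hq' hq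
  obtain ⟨C2, h2⟩ := holder (μ := (volume : Measure F)) hs.measure_lt_top.ne hp1 hp
  obtain ⟨C3, h3⟩ := holder (μ := (volume : Measure F)) hs.measure_lt_top.ne hp1 hp
  refine ⟨C1 * (C * (C2 + C3)), fun w hw hws => ?_⟩
  have hd : support (fderiv ℝ w) ⊆ s :=
    (support_fderiv_subset ℝ).trans (closure_minimal hws hs.isClosed)
  have e1 := h1 ℝ w hw.continuous.aestronglyMeasurable hws
  have e2 := h2 ℝ w hw.continuous.aestronglyMeasurable hws
  have e3 := h3 (F →L[ℝ] ℝ) (fderiv ℝ w) (hw.continuous_fderiv (by simp)).aestronglyMeasurable hd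
  calc eLpNorm w q' volume ≤ C1 * (C * (eLpNorm w p volume + eLpNorm (fderiv ℝ w) p volume)) :=
        e1.trans (by gcongr; exact hC w hw hws)
    _ ≤ C1 * (C * ((C2 + C3) * eLpNorm w p' volume +
          (C2 + C3) * eLpNorm (fderiv ℝ w) p' volume)) := by
        gcongr
        · exact e2.trans (by gcongr; exact le_self_add)
        · exact e3.trans (by gcongr; exact le_add_self)
    _ = _ := by push_cast; ring

theorem ES_gns {p q : ℝ≥0} (hp : 1 ≤ p) (h2 : p < Module.finrank ℝ F)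
    (hpq : p⁻¹ - (Module.finrank ℝ F : ℝ)⁻¹ ≤ (q : ℝ)⁻¹) : ES F q p := by
  intro s hs
  refine ⟨eLpNormLESNormFDerivOfLeConst ℝ volume s p q, fun w hw hws => ?_⟩
  refine (eLpNorm_le_eLpNorm_fderiv_of_le volume (hw.of_le (by simp)) hws hp h2 hpq
    hs.isBounded).trans ?_
  gcongr
  exact le_add_self

theorem ES_morrey {p : ℝ} (hp : (Module.finrank ℝ F : ℝ) < p) (hp1 : 1 < p) :
    ES F ⊤ (ENNReal.ofReal p) := by
  intro s hs
  obtain ⟨R, hR, hsR⟩ := hs.isBounded.subset_closedBall_lt 0 (0 : F)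
  set B := closedBall (0 : F) R with hB
  set m := (volume : Measure F) B with hm
  have hm0 : m ≠ 0 := (measure_closedBall_pos volume _ hR).ne'
  have hmt : m ≠ ⊤ := measure_closedBall_lt_top.ne
  have hp0 : 0 < p := by linarith
  have he : 0 ≤ 1 - 1 / p := sub_nonneg.2 ((div_le_one hp0).2 hp1.le)
  set c := ENNReal.ofReal (2 * R * (1 - Module.finrank ℝ F / p)⁻¹) with hc
  set K := (c + 1) * m ^ (1 - 1 / p) with hK
  have hKt : K ≠ ⊤ := ENNReal.mul_ne_top (by simp [hc]) (ENNReal.rpow_ne_top_of_nonneg he hmt)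
  refine ⟨(K / m).toNNReal, fun w hw hws => ?_⟩
  rw [ENNReal.coe_toNNReal (ENNReal.div_ne_top hKt hm0), eLpNorm_exponent_top]
  refine eLpNormEssSup_le_of_ae_enorm_bound (Eventually.of_forall fun x => ?_)
  by_cases hx : x ∈ B
  swap
  · have : w x = 0 := by
      by_contra h
      exact hx (hsR (hws h))
    simp [this]
  have hwc := hw.continuous
  have h1 := Crest.Agent.R096.Osc_802.morrey_mean volume (hw.of_le (by simp)) hp hp1 hx
  have hP0 : ENNReal.ofReal p ≠ 0 := by simpa using hp0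
  have h2 : (∫⁻ z in B, ‖fderiv ℝ w z‖ₑ ^ p) ^ (1 / p) ≤
      eLpNorm (fderiv ℝ w) (ENNReal.ofReal p) volume := by
    rw [eLpNorm_eq_lintegral_rpow_enorm_toReal hP0 ENNReal.ofReal_ne_top,
      ENNReal.toReal_ofReal hp0.le]
    gcongr
    exact Measure.restrict_le_self
  have h3 : ∫⁻ z in B, ‖w z‖ₑ ≤ eLpNorm w (ENNReal.ofReal p) volume * m ^ (1 - 1 / p) := by
    have h4 := eLpNorm_le_eLpNorm_mul_rpow_measure_univ (μ := (volume : Measure F).restrict B)
      (p := 1) (q := ENNReal.ofReal p) (by simpa using hp1.le) hwc.aestronglyMeasurable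
    rw [eLpNorm_one_eq_lintegral_enorm, Measure.restrict_apply_univ,
      ENNReal.toReal_ofReal hp0.le] at h4
    refine h4.trans ?_
    simp only [ENNReal.toReal_one, div_one]
    exact mul_le_mul_left (eLpNorm_mono_measure w Measure.restrict_le_self) _
  have h5 : ‖w x‖ₑ * m ≤ K * (eLpNorm w (ENNReal.ofReal p) volume +
      eLpNorm (fderiv ℝ w) (ENNReal.ofReal p) volume) := by
    calc ‖w x‖ₑ * m = ∫⁻ _ in B, ‖w x‖ₑ := by
          rw [lintegral_const, Measure.restrict_apply_univ]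
      _ ≤ ∫⁻ z in B, (‖w z‖ₑ + ‖w z - w x‖ₑ) := by
          refine lintegral_mono fun z => ?_
          calc ‖w x‖ₑ = ‖w z - (w z - w x)‖ₑ := by congr 1; ring
            _ ≤ ‖w z‖ₑ + ‖w z - w x‖ₑ := enorm_sub_le
      _ = (∫⁻ z in B, ‖w z‖ₑ) + ∫⁻ z in B, ‖w z - w x‖ₑ :=
          lintegral_add_left (by fun_prop) _
      _ ≤ eLpNorm w (ENNReal.ofReal p) volume * m ^ (1 - 1 / p) +
          c * (m ^ (1 - 1 / p) * eLpNorm (fderiv ℝ w) (ENNReal.ofReal p) volume) :=
          add_le_add h3 (h1.trans (by gcongr))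
      _ ≤ (c + 1) * (eLpNorm w (ENNReal.ofReal p) volume * m ^ (1 - 1 / p)) +
          (c + 1) * (m ^ (1 - 1 / p) * eLpNorm (fderiv ℝ w) (ENNReal.ofReal p) volume) := by
          exact add_le_add (le_mul_of_one_le_left' le_add_self) (by gcongr; exact le_self_add)
      _ = _ := by rw [hK]; ring
  rw [div_eq_mul_inv, mul_right_comm, ← div_eq_mul_inv]
  exact (ENNReal.le_div_iff_mul_le (Or.inl hm0) (Or.inl hmt)).2 h5

theorem ES_top_five (hn : Module.finrank ℝ F ≤ 4) : ES F ⊤ 5 := by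
  have h : (Module.finrank ℝ F : ℝ) ≤ 4 := by exact_mod_cast hn
  simpa using ES_morrey (F := F) (p := 5) (by linarith) (by norm_num)

theorem ES_five_four (hn : Module.finrank ℝ F ≤ 4) : ES F 5 4 := by
  rcases hn.lt_or_eq with h | h
  · have h' : (Module.finrank ℝ F : ℝ) < 4 := by exact_mod_cast h
    have h2 : ES F ⊤ 4 := by simpa using ES_morrey (F := F) (p := 4) h' (by norm_num)
    exact h2.mono (by norm_num) le_top (by norm_num) le_rfl
  · have h2 : ES F (5 : ℝ≥0) (3 : ℝ≥0) := ES_gns (by norm_num) (by rw [h]; norm_num)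
      (by rw [h]; norm_num)
    exact ES.mono (q := 5) (p := 3) (by simpa using h2) (by norm_num) le_rfl (by norm_num)
      (by norm_num)

theorem ES_four_two (hn : Module.finrank ℝ F ≤ 4) : ES F 4 2 := by
  by_cases h : Module.finrank ℝ F < 2
  · have h' : (Module.finrank ℝ F : ℝ) < 2 := by exact_mod_cast h
    have h2 : ES F ⊤ 2 := by simpa using ES_morrey (F := F) (p := 2) h' (by norm_num)
    exact h2.mono (by norm_num) le_top (by norm_num) le_rfl
  · have h3 : (2 : ℝ) ≤ Module.finrank ℝ F := by exact_mod_cast not_lt.1 h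
    have h4 : (Module.finrank ℝ F : ℝ) ≤ 4 := by exact_mod_cast hn
    by_cases h5 : Module.finrank ℝ F = 2
    · have h2 : ES F (4 : ℝ≥0) (3 / 2 : ℝ≥0) := ES_gns (by rw [← NNReal.coe_le_coe]; norm_num)
        (by rw [h5, ← NNReal.coe_lt_coe]; norm_num) (by rw [h5]; norm_num)
      refine ES.mono (q := 4) (p := (3 / 2 : ℝ≥0)) (by simpa using h2) (by norm_num) le_rfl ?_ ?_
      · rw [ENNReal.one_le_coe_iff, ← NNReal.coe_le_coe]; norm_num
      · rw [← ENNReal.coe_ofNat, ENNReal.coe_le_coe, ← NNReal.coe_le_coe]; norm_num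
    · have h6 : 2 < Module.finrank ℝ F := by omega
      have h2 : ES F (4 : ℝ≥0) (2 : ℝ≥0) := ES_gns (by norm_num) (by exact_mod_cast h6) (by
        have : (4 : ℝ)⁻¹ ≤ (Module.finrank ℝ F : ℝ)⁻¹ := inv_anti₀ (by linarith) h4
        push_cast
        linarith)
      simpa using h2

/-! ### bumps in charts -/

variable [FiniteDimensional ℝ E] [IsManifold I ∞ M] [T2Space M] {μ : Measure M}
  {ι : Type} [Fintype ι] {e : ι → (x : M) → TangentSpace I x}

/-- a smooth bump at `x`, supported in a chart and in `U` -/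
theorem Atl.bump (h : Atl I μ F) {U : Set M} (hU : IsOpen U) {x : M} (hx : x ∈ U) :
    ∃ (c : Ch I μ F) (χ : M → ℝ), ContMDiff I 𝓘(ℝ, ℝ) ∞ χ ∧ HasCompactSupport χ ∧
      tsupport χ ⊆ c.φ.source ∩ U ∧ (∀ y, 0 ≤ χ y ∧ χ y ≤ 1) ∧ ∀ᶠ y in 𝓝 x, χ y = 1 := by
  obtain ⟨c, hc⟩ := h x
  obtain ⟨f, -, hf⟩ := (SmoothBumpFunction.nhds_basis_tsupport (I := I) x).mem_iff.1
    ((c.φ.open_source.inter hU).mem_nhds ⟨hc, hx⟩)
  exact ⟨c, f, f.contMDiff, f.hasCompactSupport, hf, fun y => ⟨f.nonneg, f.le_one⟩,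
    f.eventuallyEq_one⟩

/-- finitely many bumps whose level sets `χ = 1` cover a compact set -/
theorem Atl.bumps (h : Atl I μ F) {U K : Set M} (hU : IsOpen U) (hK : IsCompact K) (hKU : K ⊆ U) :
    ∃ (t : Finset K) (c : K → Ch I μ F) (χ : K → M → ℝ),
      (∀ j, ContMDiff I 𝓘(ℝ, ℝ) ∞ (χ j) ∧ HasCompactSupport (χ j) ∧
        tsupport (χ j) ⊆ (c j).φ.source ∩ U ∧ ∀ y, 0 ≤ χ j y ∧ χ j y ≤ 1) ∧
      ∀ y ∈ K, ∃ j ∈ t, χ j y = 1 := by
  choose c χ h1 h2 h3 h4 h5 using fun x : K => h.bump hU (hKU x.2)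
  obtain ⟨t, ht⟩ := hK.elim_nhds_subcover' (fun x hx => {y | χ ⟨x, hx⟩ y = 1})
    fun x hx => h5 ⟨x, hx⟩
  refine ⟨t, c, χ, fun j => ⟨h1 j, h2 j, h3 j, h4 j⟩, fun y hy => ?_⟩
  obtain ⟨j, hj, hy⟩ := mem_iUnion₂.1 (ht hy)
  exact ⟨j, hj, hy⟩

/-- the derivative in the chart is bounded by the frame derivatives -/
theorem Ch.fderiv_le (c : Ch I μ F)
    (he : ∀ a, ContMDiff I I.tangent ∞ (fun x => (⟨x, e a x⟩ : TangentBundle I M)))
    (hsp : ∀ x, Submodule.span ℝ (range fun a => e a x) = ⊤) {L : Set F} (hL : IsCompact L)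
    (hLs : L ⊆ c.φ.target) : ∃ C : ℝ≥0, ∀ (V : Type) [NormedAddCommGroup V] [NormedSpace ℝ V]
      (u : M → V), ContMDiff I 𝓘(ℝ, V) ∞ u → ∀ y ∈ L,
      ‖fderiv ℝ (c.pf u) y‖ ≤ C * ∑ a, ‖dv I (e a) u (c.φ.symm y)‖ := by
  obtain ⟨C, hC⟩ := span_bound (w := fun a => c.vf (e a)) hL
    (fun a => (c.vf_on (he a)).continuousOn.mono hLs) fun y hy => c.vf_span hsp (hLs hy)
  refine ⟨C, fun V _ _ u hu y hy => (hC y hy V _).trans (le_of_eq ?_)⟩
  congr 1
  exact Finset.sum_congr rfl fun a _ => by rw [c.dv_chart (e a) (hLs hy) (hu _)]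

/-- `W^{1,p}` norms in the chart are bounded by the frame norms -/
theorem Ch.w1_le (c : Ch I μ F)
    (he : ∀ a, ContMDiff I I.tangent ∞ (fun x => (⟨x, e a x⟩ : TangentBundle I M)))
    (hsp : ∀ x, Submodule.span ℝ (range fun a => e a x) = ⊤) {K : Set M} (hK : IsCompact K)
    (hKs : K ⊆ c.φ.source) {p : ℝ≥0∞} (hp : 1 ≤ p) : ∃ C : ℝ≥0,
      ∀ u : M → ℝ, ContMDiff I 𝓘(ℝ, ℝ) ∞ u → support u ⊆ K →
      eLpNorm (c.pf u) p volume ≤ C * eLpNorm u p μ ∧
      eLpNorm (fderiv ℝ (c.pf u)) p volume ≤ C * ∑ a, eLpNorm (dv I (e a) u) p μ := by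
  obtain ⟨C1, h1⟩ := c.eLp_cmp hK hKs p
  obtain ⟨C2, h2⟩ := c.fderiv_le he hsp (c.img_cpt hK hKs) (c.img_sub hKs)
  refine ⟨C1 + C1 * C2, fun u hu hs => ⟨?_, ?_⟩⟩
  · refine ((h1 ℝ u hu.continuous.norm.measurable hs).2).trans ?_
    gcongr
    exact le_self_add
  · let g : M → ℝ := fun x => ∑ a, ‖dv I (e a) u x‖
    have hd : ∀ a, Continuous fun x => ‖dv I (e a) u x‖ :=
      fun a => (dv_smooth (he a) hu).continuous.norm
    have hg : Continuous g := continuous_finsetSum _ fun a _ => hd a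
    have hts : tsupport u ⊆ K := closure_minimal hs hK.isClosed
    have hgs : support g ⊆ K := fun x hx => by
      by_contra h
      exact hx (Finset.sum_eq_zero fun a _ => by
        rw [dv_eq_zero_of_notMem fun h' => h (hts h'), norm_zero])
    have e1 : eLpNorm (fderiv ℝ (c.pf u)) p volume ≤ C2 * eLpNorm (c.pf g) p volume := by
      refine eLpNorm_le_nnreal_smul_eLpNorm_of_ae_le_mul (Eventually.of_forall fun y => ?_) p
      rw [← NNReal.coe_le_coe]
      push_cast
      by_cases hy : y ∈ c.φ '' K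
      · refine (h2 ℝ u hu y hy).trans ?_
        rw [c.pf_of_mem g (c.img_sub hKs hy)]
        gcongr
        exact le_abs_self _
      · have : fderiv ℝ (c.pf u) y = 0 := by
          by_contra h
          exact hy (c.tsupport_pf hK hKs hs (support_fderiv_subset ℝ h))
        rw [this, norm_zero]
        positivity
    have e2 := (h1 ℝ g hg.norm.measurable hgs).2
    have e3 : eLpNorm g p μ ≤ ∑ a, eLpNorm (dv I (e a) u) p μ := by
      have h3 : g = ∑ a, fun x => ‖dv I (e a) u x‖ := by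
        funext x; simp [g]
      rw [h3]
      refine (eLpNorm_sum_le (fun a _ => (hd a).aestronglyMeasurable) hp).trans (le_of_eq ?_)
      exact Finset.sum_congr rfl fun a _ => eLpNorm_norm _
    calc _ ≤ (C2 : ℝ≥0∞) * (C1 * ∑ a, eLpNorm (dv I (e a) u) p μ) :=
          e1.trans (by gcongr; exact e2.trans (by gcongr))
      _ = (C1 * C2 : ℝ≥0) * ∑ a, eLpNorm (dv I (e a) u) p μ := by push_cast; ring
      _ ≤ _ := by gcongr; exact le_add_self

/-- cutting off is bounded in `W^{1,p}`, with the norms on the right taken on `U` -/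
theorem cut_le (he : ∀ a, ContMDiff I I.tangent ∞ (fun x => (⟨x, e a x⟩ : TangentBundle I M)))
    {χ : M → ℝ} (hχ : ContMDiff I 𝓘(ℝ, ℝ) ∞ χ) (hc : HasCompactSupport χ) {U : Set M}
    (hχU : tsupport χ ⊆ U) {p : ℝ≥0∞} (hp : 1 ≤ p) : ∃ C : ℝ≥0,
      ∀ u : M → ℝ, ContMDiff I 𝓘(ℝ, ℝ) ∞ u →
      eLpNorm (fun x => χ x * u x) p μ ≤ C * eLpNorm u p (μ.restrict U) ∧
      ∀ a, eLpNorm (dv I (e a) fun x => χ x * u x) p μ ≤
        C * (eLpNorm u p (μ.restrict U) + eLpNorm (dv I (e a) u) p (μ.restrict U)) := by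
  obtain ⟨A, hA⟩ := hχ.continuous.bounded_above_of_compact_support hc
  choose B hB using fun a => (dv_smooth (he a) hχ).continuous.bounded_above_of_compact_support
    (dv_hcs (e := e a) hc)
  set C : ℝ := |A| + ∑ a, |B a| with hC
  have hC0 : 0 ≤ C := by positivity
  have hA' : ∀ x, ‖χ x‖ ≤ C := fun x => ((hA x).trans (le_abs_self _)).trans
    (le_add_of_nonneg_right (by positivity))
  have hB' : ∀ a x, ‖dv I (e a) χ x‖ ≤ C := fun a x => ((hB a x).trans (le_abs_self _)).trans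
    ((Finset.single_le_sum (f := fun a => |B a|) (fun _ _ => abs_nonneg _)
      (Finset.mem_univ a)).trans (le_add_of_nonneg_left (abs_nonneg _)))
  have key : ∀ f g : M → ℝ, (∀ x, ‖f x‖ ≤ C) → support f ⊆ U →
      eLpNorm (fun x => f x * g x) p μ ≤ C.toNNReal * eLpNorm g p (μ.restrict U) := by
    intro f g hf hs
    rw [← eLpNorm_restrict_eq_of_support_subset (s := U)
      ((support_mul_subset_left f g).trans hs)]
    refine eLpNorm_le_mul_eLpNorm_of_ae_le_mul (Eventually.of_forall fun x => ?_) p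
    rw [norm_mul]
    gcongr
    exact hf x
  refine ⟨C.toNNReal, fun u hu => ⟨key _ _ hA' ((subset_tsupport _).trans hχU), fun a => ?_⟩⟩
  have h1 : (dv I (e a) fun x => χ x * u x) =
      (fun x => dv I (e a) χ x * u x) + fun x => χ x * dv I (e a) u x :=
    funext fun x => dv_smul (hχ.mdifferentiableAt (by simp)) (hu.mdifferentiableAt (by simp))
  rw [h1, mul_add]
  refine (eLpNorm_add_le
    (((dv_smooth (he a) hχ).continuous.mul hu.continuous).aestronglyMeasurable)
    ((hχ.continuous.mul (dv_smooth (he a) hu).continuous).aestronglyMeasurable) hp).trans ?_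
  exact add_le_add (key _ _ (hB' a) ((support_dv χ).trans hχU))
    (key _ _ hA' ((subset_tsupport _).trans hχU))

theorem exists_le_all {κ : Type} (t : Finset κ) (C : κ → ℝ≥0) : ∃ D : ℝ≥0, ∀ j ∈ t, C j ≤ D :=
  ⟨t.sup C, fun _ hj => Finset.le_sup hj⟩

/-- **first order Sobolev inequality**, interior form -/
theorem Atl.sob (h : Atl I μ F)
    (he : ∀ a, ContMDiff I I.tangent ∞ (fun x => (⟨x, e a x⟩ : TangentBundle I M)))
    (hsp : ∀ x, Submodule.span ℝ (range fun a => e a x) = ⊤) {q p : ℝ≥0∞} (hq : 1 ≤ q)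
    (hp : 1 ≤ p) (hE : ES F q p) {U K : Set M} (hU : IsOpen U) (hK : IsCompact K) (hKU : K ⊆ U) :
    ∃ C : ℝ≥0, ∀ u : M → ℝ, ContMDiff I 𝓘(ℝ, ℝ) ∞ u → eLpNorm u q (μ.restrict K) ≤
      C * (eLpNorm u p (μ.restrict U) + ∑ a, eLpNorm (dv I (e a) u) p (μ.restrict U)) := by
  obtain ⟨t, c, χ, hχ, hcov⟩ := h.bumps hU hK hKU
  have loc : ∀ j, ∃ C : ℝ≥0, ∀ u : M → ℝ, ContMDiff I 𝓘(ℝ, ℝ) ∞ u →
      eLpNorm (fun x => χ j x * u x) q μ ≤
      C * (eLpNorm u p (μ.restrict U) + ∑ a, eLpNorm (dv I (e a) u) p (μ.restrict U)) := by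
    intro j
    obtain ⟨h1, h2, h3, -⟩ := hχ j
    have hs : tsupport (χ j) ⊆ (c j).φ.source := h3.trans inter_subset_left
    obtain ⟨C1, k1⟩ := (c j).eLp_cmp h2.isCompact hs q
    obtain ⟨C2, k2⟩ := hE _ ((c j).img_cpt h2.isCompact hs)
    obtain ⟨C3, k3⟩ := (c j).w1_le he hsp h2.isCompact hs hp
    obtain ⟨C4, k4⟩ := cut_le (μ := μ) he h1 h2 (h3.trans inter_subset_right) hp
    refine ⟨C1 * (C2 * (C3 * (C4 * (1 + Fintype.card ι)))), fun u hu => ?_⟩
    have hv : ContMDiff I 𝓘(ℝ, ℝ) ∞ fun x => χ j x * u x := h1.mul hu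
    have hvs : support (fun x => χ j x * u x) ⊆ tsupport (χ j) :=
      (support_mul_subset_left _ _).trans (subset_tsupport _)
    have e1 := (k1 ℝ _ hv.continuous.norm.measurable hvs).1
    have e2 := k2 _ ((c j).pf_smooth h2.isCompact hs hvs hv)
      ((subset_tsupport _).trans ((c j).tsupport_pf h2.isCompact hs hvs))
    obtain ⟨e3, e4⟩ := k3 _ hv hvs
    obtain ⟨e5, e6⟩ := k4 u hu
    set A := eLpNorm u p (μ.restrict U)
    set B := fun a => eLpNorm (dv I (e a) u) p (μ.restrict U)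
    have e7 : ∑ a, eLpNorm (dv I (e a) fun x => χ j x * u x) p μ ≤
        C4 * (Fintype.card ι * A + ∑ a, B a) := by
      refine (Finset.sum_le_sum fun a _ => e6 a).trans (le_of_eq ?_)
      rw [← Finset.mul_sum, Finset.sum_add_distrib]
      simp [B]
    calc _ ≤ (C1 : ℝ≥0∞) * (C2 * (C3 * (C4 * A) + C3 * (C4 * (Fintype.card ι * A + ∑ a, B a)))) := by
          refine e1.trans ?_
          gcongr
          refine e2.trans ?_
          gcongr
          · exact e3.trans (by gcongr)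
          · exact e4.trans (by gcongr)
      _ = (C1 : ℝ≥0∞) * (C2 * (C3 * (C4 * ((1 + Fintype.card ι) * A + 1 * ∑ a, B a)))) := by ring
      _ ≤ (C1 : ℝ≥0∞) * (C2 * (C3 * (C4 * ((1 + Fintype.card ι) * A +
            (1 + Fintype.card ι) * ∑ a, B a)))) := by
          gcongr
          exact le_self_add
      _ = _ := by push_cast; ring
  choose C hC using loc
  refine ⟨∑ j ∈ t, C j, fun u hu => ?_⟩
  have hm : ∀ j, Continuous fun x => ‖χ j x * u x‖ :=
    fun j => ((hχ j).1.continuous.mul hu.continuous).norm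
  calc eLpNorm u q (μ.restrict K)
      ≤ eLpNorm (∑ j ∈ t, fun x => ‖χ j x * u x‖) q (μ.restrict K) := by
        refine eLpNorm_mono_ae_real ?_
        filter_upwards [ae_restrict_mem hK.measurableSet] with x hx
        obtain ⟨j, hj, hx1⟩ := hcov x hx
        rw [Finset.sum_apply]
        refine le_trans (by rw [hx1, one_mul])
          (Finset.single_le_sum (f := fun j => ‖χ j x * u x‖) (fun _ _ => norm_nonneg _) hj)
    _ ≤ eLpNorm (∑ j ∈ t, fun x => ‖χ j x * u x‖) q μ :=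
        eLpNorm_mono_measure _ Measure.restrict_le_self
    _ ≤ ∑ j ∈ t, eLpNorm (fun x => ‖χ j x * u x‖) q μ :=
        eLpNorm_sum_le (fun j _ => (hm j).aestronglyMeasurable) hq
    _ ≤ _ := by
        push_cast
        rw [Finset.sum_mul]
        exact Finset.sum_le_sum fun j _ => by rw [eLpNorm_norm]; exact hC j u hu

end Crest.Agent.X212.Cht98
end
end

-- ▼ part X212/Cht98/Br

/-! Row 212, layer AN (helper98): the charts of an `An.Pre`; the Sobolev constants on compact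
sets; every `Fr` on a closed manifold of dimension `≤ 4` is tame. -/

set_option autoImplicit false
set_option linter.unusedSectionVars false

open scoped Manifold ContDiff Topology ENNReal NNReal
open Set Filter Function MeasureTheory

noncomputable section
namespace Crest.Agent.X212.Cht98
open Crest.Agent.X212.Sob92 Crest.Agent.X212.An

variable {E : Type} [NormedAddCommGroup E] [NormedSpace ℝ E] [FiniteDimensional ℝ E]
  [MeasurableSpace E] [BorelSpace E]
  {HM : Type} [TopologicalSpace HM] {I : ModelWithCorners ℝ E HM} [I.Boundaryless]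
  {M : Type} [TopologicalSpace M] [ChartedSpace HM M] [IsManifold I ∞ M]
  [MeasurableSpace M] [BorelSpace M] {ι : Type} [Fintype ι]

variable (E) in
/-- the Euclidean model -/
abbrev Eu : Type := EuclideanSpace ℝ (Fin (Module.finrank ℝ E))

variable (E) in
/-- the linear coordinates of the model space -/
def toEu : E ≃L[ℝ] Eu E :=
  ((Module.finBasis ℝ E).equiv (EuclideanSpace.basisFun (Fin (Module.finrank ℝ E)) ℝ).toBasis
    (Equiv.refl _)).toContinuousLinearEquiv

theorem map_leb : (leb E).map (toEu E) = volume := by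
  rw [leb, Module.Basis.map_addHaar,
    ← (EuclideanSpace.basisFun (Fin (Module.finrank ℝ E)) ℝ).addHaar_eq_volume]
  congr 1
  ext i
  simp [toEu]

theorem finrank_Eu : Module.finrank ℝ (Eu E) = Module.finrank ℝ E := by simp

/-- the chart at `x₀`, restricted to `O`, in Euclidean coordinates -/
def chO (I : ModelWithCorners ℝ E HM) [I.Boundaryless] (x₀ : M) {O : Set M} (hO : IsOpen O) :
    OpenPartialHomeomorph M (Eu E) :=
  ((chartAt HM x₀).restrOpen O hO).transHomeomorph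
    (I.toHomeomorph.trans (toEu E).toHomeomorph)

theorem atl (F : Pre I M ι) : Atl I F.μ (Eu E) := by
  intro x₀
  obtain ⟨O, ρ, ⟨hO, hx, hOs, hμ⟩, hρ, hp⟩ := F.dens x₀
  set φ := chO I x₀ hO with hφ
  have hOs' : O ⊆ (chartAt HM x₀).source := by simpa using hOs
  have h1 : ∀ x, φ x = toEu E (extChartAt I x₀ x) := fun x => rfl
  have h2 : ∀ y, φ.symm y = (extChartAt I x₀).symm ((toEu E).symm y) := fun y => rfl
  have hs : φ.source = O := by
    rw [hφ, chO]
    exact inter_eq_right.2 hOs'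
  have ht : φ.target = toEu E '' (extChartAt I x₀ '' O) := by
    rw [← φ.image_source_eq_target, hs, image_image]
    rfl
  have hto : ∀ y ∈ φ.target, (toEu E).symm y ∈ extChartAt I x₀ '' O := by
    intro y hy
    rw [ht] at hy
    obtain ⟨z, hz, rfl⟩ := hy
    rwa [ContinuousLinearEquiv.symm_apply_apply]
  have hT : IsOpen (extChartAt I x₀ '' O) := by
    have h3 := (toEu E).toHomeomorph.isOpen_image (s := extChartAt I x₀ '' O)
    exact h3.1 (ht ▸ φ.open_target)
  have hTt : extChartAt I x₀ '' O ⊆ (extChartAt I x₀).target := by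
    rintro _ ⟨z, hz, rfl⟩
    exact (extChartAt I x₀).map_source (hOs hz)
  refine ⟨⟨φ, ?_, ?_, fun y => ρ ((toEu E).symm y), ?_, fun y hy => hp _ (hto y hy), ?_⟩,
    by show x₀ ∈ φ.source; rwa [hs]⟩
  · rw [hs]
    exact (toEu E).contDiff.contMDiff.comp_contMDiffOn ((contMDiffOn_extChartAt (x := x₀)).mono hOs')
  · exact (contMDiffOn_extChartAt_symm x₀).comp (toEu E).symm.contDiff.contMDiff.contMDiffOn
      fun y hy => hTt (hto y hy)
  · exact hρ.comp (toEu E).symm.contDiff.contDiffOn hto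
  · intro g hg
    have ha : AEMeasurable (extChartAt I x₀) (F.μ.restrict O) :=
      ((continuousOn_extChartAt x₀).mono hOs).aemeasurable hO.measurableSet
    have hb : AEMeasurable (extChartAt I x₀).symm ((leb E).restrict (extChartAt I x₀ '' O)) :=
      ((continuousOn_extChartAt_symm x₀).mono hTt).aemeasurable hT.measurableSet
    have hρm : AEMeasurable (fun y => ENNReal.ofReal (ρ y))
        ((leb E).restrict (extChartAt I x₀ '' O)) :=
      (hρ.continuousOn.aemeasurable hT.measurableSet).ennreal_ofReal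
    have hgb : AEMeasurable (fun y => g ((extChartAt I x₀).symm y))
        ((leb E).restrict (extChartAt I x₀ '' O)) := hg.comp_aemeasurable' hb
    have hme : MeasurableEmbedding (toEu E) := (toEu E).toHomeomorph.measurableEmbedding
    calc ∫⁻ x in φ.source, g x ∂F.μ
        = ∫⁻ x in O, g ((extChartAt I x₀).symm (extChartAt I x₀ x)) ∂F.μ := by
          rw [hs]
          exact setLIntegral_congr_fun hO.measurableSet fun x hx => by
            rw [(extChartAt I x₀).left_inv (hOs hx)]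
      _ = ∫⁻ y, g ((extChartAt I x₀).symm y) ∂((F.μ.restrict O).map (extChartAt I x₀)) := by
          refine (lintegral_map' (f := fun y => g ((extChartAt I x₀).symm y)) ?_ ha).symm
          rw [hμ]
          exact hgb.mono_ac (withDensity_absolutelyContinuous _ _)
      _ = ∫⁻ y in extChartAt I x₀ '' O, ENNReal.ofReal (ρ y) * g ((extChartAt I x₀).symm y)
            ∂(leb E) := by
          rw [hμ, lintegral_withDensity_eq_lintegral_mul₀ hρm hgb]
          rfl
      _ = _ := by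
          rw [← map_leb, hme.restrict_map, hme.lintegral_map, ht,
            preimage_image_eq _ (toEu E).injective]
          simp only [h2, ContinuousLinearEquiv.symm_apply_apply]

theorem openPos (F : Pre I M ι) : F.μ.IsOpenPosMeasure := (atl F).openPos

/-- a continuous function is bounded by its essential supremum -/
theorem enorm_le_top {μ : Measure M} [μ.IsOpenPosMeasure] {f : M → ℝ} (hf : Continuous f) (x : M) :
    ‖f x‖ₑ ≤ eLpNorm f ⊤ μ := by
  by_contra h
  have hU : IsOpen {y | eLpNormEssSup f μ < ‖f y‖ₑ} := isOpen_lt continuous_const hf.enorm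
  exact hU.measure_ne_zero μ ⟨x, by simpa [eLpNorm_exponent_top] using h⟩ meas_eLpNormEssSup_lt

variable [T2Space M]

theorem eLp_two (F : Pre I M ι) {f : M → ℝ} (hf : Sm I f) (hc : HasCompactSupport f) :
    eLpNorm f 2 F.μ = ENNReal.ofReal (F.nrm 0 f) := by
  rw [(hf.continuous.memLp_of_hasCompactSupport hc).eLpNorm_eq_integral_rpow_norm (by norm_num)
    (by norm_num), nrm_eq, Real.sqrt_eq_rpow]
  simp [N2, n2]

theorem eLp_four (F : Pre I M ι) {f : M → ℝ} (hf : Sm I f) (hc : HasCompactSupport f) :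
    eLpNorm f 4 F.μ = ENNReal.ofReal (√(√(∫ x, f x ^ 4 ∂F.μ))) := by
  rw [(hf.continuous.memLp_of_hasCompactSupport hc).eLpNorm_eq_integral_rpow_norm (by norm_num)
    (by norm_num), Real.sqrt_eq_rpow, Real.sqrt_eq_rpow,
    ← Real.rpow_mul (integral_nonneg fun x => by positivity)]
  have h : ∀ x, ‖f x‖ ^ (4 : ℝ≥0∞).toReal = f x ^ 4 := fun x => by
    rw [show (4 : ℝ≥0∞).toReal = ((4 : ℕ) : ℝ) by simp, Real.rpow_natCast, Real.norm_eq_abs,
      Even.pow_abs (by decide)]
  simp only [h]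
  norm_num

/-- one step of the Sobolev chain -/
theorem step (F : Pre I M ι) {q p : ℝ≥0∞} (hq : 1 ≤ q) (hp : 1 ≤ p) (hE : ES (Eu E) q p)
    {K : Set M} (hK : IsCompact K) {k : ℕ} {C : ℝ≥0}
    (h : ∀ f : M → ℝ, Sm I f → tsupport f ⊆ K →
      eLpNorm f p F.μ ≤ C * ENNReal.ofReal (F.nrm k f)) :
    ∃ C' : ℝ≥0, ∀ f : M → ℝ, Sm I f → tsupport f ⊆ K →
      eLpNorm f q F.μ ≤ C' * ENNReal.ofReal (F.nrm (k + 1) f) := by
  obtain ⟨A, hA⟩ := (atl F).sob F.sm F.span hq hp hE isOpen_univ hK (subset_univ K)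
  refine ⟨A * (C * (1 + Fintype.card ι)), fun f hf hs => ?_⟩
  have h1 := hA f hf
  rw [eLpNorm_restrict_eq_of_support_subset ((subset_tsupport f).trans hs),
    Measure.restrict_univ] at h1
  have h2 : eLpNorm f p F.μ ≤ C * ENNReal.ofReal (F.nrm (k + 1) f) :=
    (h f hf hs).trans (by gcongr; exact nrm_mono (Nat.le_succ k) f)
  have h3 : ∀ a, eLpNorm (dv I (F.e a) f) p F.μ ≤ C * ENNReal.ofReal (F.nrm (k + 1) f) :=
    fun a => (h _ (F.sm_D hf a) ((F.tsupport_D f a).trans hs)).trans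
      (by gcongr; exact nrm_D_le k f a)
  calc _ ≤ (A : ℝ≥0∞) * (C * ENNReal.ofReal (F.nrm (k + 1) f) +
        ∑ _a : ι, C * ENNReal.ofReal (F.nrm (k + 1) f)) := h1.trans (by gcongr with a; exact h3 a)
    _ = _ := by
      rw [Finset.sum_const, Finset.card_univ, nsmul_eq_mul]
      push_cast
      ring

theorem eLp_four_le (F : Pre I M ι) (hn : Module.finrank ℝ E ≤ 4) {K : Set M} (hK : IsCompact K) :
    ∃ C : ℝ≥0, ∀ f : M → ℝ, Sm I f → tsupport f ⊆ K →
      eLpNorm f 4 F.μ ≤ C * ENNReal.ofReal (F.nrm 1 f) :=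
  step F (by norm_num) (by norm_num) (ES_four_two (finrank_Eu.trans_le hn)) hK (C := 1)
    fun f hf hs => by
      rw [eLp_two F hf (hK.of_isClosed_subset (isClosed_tsupport f) hs)]
      simp

theorem eLp_top_le (F : Pre I M ι) (hn : Module.finrank ℝ E ≤ 4) {K : Set M} (hK : IsCompact K) :
    ∃ C : ℝ≥0, ∀ f : M → ℝ, Sm I f → tsupport f ⊆ K →
      eLpNorm f ⊤ F.μ ≤ C * ENNReal.ofReal (F.nrm 3 f) := by
  obtain ⟨C1, h1⟩ := eLp_four_le F hn hK
  obtain ⟨C2, h2⟩ := step F (by norm_num) (by norm_num) (ES_five_four (finrank_Eu.trans_le hn)) hK h1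
  exact step F le_top (by norm_num) (ES_top_five (finrank_Eu.trans_le hn)) hK h2

/-- the `L⁴` inequality for functions supported in `K` -/
def L4On (F : Pre I M ι) (K : Set M) (S : ℝ) : Prop := ∀ f : M → ℝ, Sm I f →
  HasCompactSupport f → tsupport f ⊆ K → √(∫ x, f x ^ 4 ∂F.μ) ≤ S * F.ip 1 f f

/-- the sup inequality for functions supported in `K` -/
def SupOn (F : Pre I M ι) (K : Set M) (S : ℝ) : Prop := ∀ f : M → ℝ, Sm I f →
  HasCompactSupport f → tsupport f ⊆ K → ∀ x, f x ^ 2 ≤ S * F.ip 3 f f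

theorem L4On.mono {F : Pre I M ι} {K K' : Set M} {S S' : ℝ} (h : L4On F K S) (hK : K' ⊆ K)
    (hS : S ≤ S') : L4On F K' S' := fun f hf hc hs =>
  (h f hf hc (hs.trans hK)).trans (mul_le_mul_of_nonneg_right hS (F.ip_nonneg 1 f))

theorem SupOn.mono {F : Pre I M ι} {K K' : Set M} {S S' : ℝ} (h : SupOn F K S) (hK : K' ⊆ K)
    (hS : S ≤ S') : SupOn F K' S' := fun f hf hc hs x =>
  (h f hf hc (hs.trans hK) x).trans (mul_le_mul_of_nonneg_right hS (F.ip_nonneg 3 f))

theorem l4On (F : Pre I M ι) (hn : Module.finrank ℝ E ≤ 4) {K : Set M} (hK : IsCompact K) :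
    ∃ S, 0 ≤ S ∧ L4On F K S := by
  obtain ⟨C, hC⟩ := eLp_four_le F hn hK
  refine ⟨C ^ 2, by positivity, fun f hf hc hs => ?_⟩
  have h1 := hC f hf hs
  rw [eLp_four F hf hc, ← ENNReal.ofReal_coe_nnreal, ← ENNReal.ofReal_mul C.coe_nonneg,
    ENNReal.ofReal_le_ofReal_iff (mul_nonneg C.coe_nonneg (nrm_nonneg 1 f))] at h1
  have h2 := pow_le_pow_left₀ (Real.sqrt_nonneg _) h1 2
  rwa [Real.sq_sqrt (Real.sqrt_nonneg _), mul_pow, nrm_sq, ← ip_eq] at h2

theorem supOn (F : Pre I M ι) (hn : Module.finrank ℝ E ≤ 4) {K : Set M} (hK : IsCompact K) :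
    ∃ S, 0 ≤ S ∧ SupOn F K S := by
  obtain ⟨C, hC⟩ := eLp_top_le F hn hK
  have := openPos F
  refine ⟨C ^ 2, by positivity, fun f hf hc hs x => ?_⟩
  have h1 := (enorm_le_top hf.continuous x).trans (hC f hf hs)
  rw [← ofReal_norm, ← ENNReal.ofReal_coe_nnreal, ← ENNReal.ofReal_mul C.coe_nonneg,
    ENNReal.ofReal_le_ofReal_iff (mul_nonneg C.coe_nonneg (nrm_nonneg 3 f))] at h1
  have h2 := pow_le_pow_left₀ (norm_nonneg _) h1 2
  rwa [Real.norm_eq_abs, sq_abs, mul_pow, nrm_sq, ← ip_eq] at h2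

theorem ip_mono (F : Pre I M ι) {i j : ℕ} (hij : i ≤ j) (f : M → ℝ) : F.ip i f f ≤ F.ip j f f := by
  rw [ip_eq, ip_eq]
  exact n2_mono hij f

theorem CBs_mono {F : Pre I M ι} {N : Type} [NormedAddCommGroup N] [NormedSpace ℝ N] {f : M → N}
    {C C' : ℕ → ℝ} (h : F.CBs f C) (hC : ∀ k, C k ≤ C' k) : F.CBs f C' :=
  ⟨h.1, fun k => CB_mono (h.2 k) (hC k)⟩

/-- finitely many bounded functions have common bounds -/
theorem Cb_common {F : Pre I M ι} {κ : Type} [Finite κ] {f : κ → M → ℝ} (h : ∀ j, F.Cb (f j)) :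
    ∃ C : ℕ → ℝ, ∀ j, F.CBs (f j) C := by
  choose C hC using h
  choose D hD using fun k => (Set.finite_range fun j => C j k).bddAbove
  exact ⟨D, fun j => CBs_mono (hC j) fun k => hD k ⟨j, rfl⟩⟩

theorem Tame_mono {F : Fr I M ι} {C C' : ℕ → ℝ} (h : F.Tame C) (hC : ∀ k, C k ≤ C' k) :
    F.Tame C' where
  P a b := CBs_mono (h.P a b) hC
  c a b l := CBs_mono (h.c a b l) hC
  dv a := CBs_mono (h.dv a) hC
  l4 f hf hc := (h.l4 f hf hc).trans (mul_le_mul_of_nonneg_right (hC 0) (F.ip_nonneg 1 f))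
  sup f hf hc x := (h.sup f hf hc x).trans (mul_le_mul_of_nonneg_right (hC 0) (F.ip_nonneg 4 f))
  exh K hK := let ⟨χ, h1, h2⟩ := h.exh K hK; ⟨χ, CBs_mono h1 hC, h2⟩

/-- tameness from its parts, each with its own constants -/
theorem tame_of {F : Fr I M ι} (hP : ∀ a b, F.Cb (F.P a b)) (hc : ∀ a b l, F.Cb (F.c a b l))
    (hd : ∀ a, F.Cb (F.dv a)) {S S' : ℝ} (h4 : L4On F.toPre univ S) (hs : SupOn F.toPre univ S')
    {C : ℕ → ℝ} (hex : ∀ K : Set M, IsCompact K → ∃ χ : M → ℝ, F.CBs χ C ∧ HasCompactSupport χ ∧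
      (∀ x, 0 ≤ χ x ∧ χ x ≤ 1) ∧ ∀ x ∈ K, χ x = 1) : ∃ C, F.Tame C := by
  obtain ⟨C1, h1⟩ := Cb_common (f := fun p : ι × ι => F.P p.1 p.2) fun p => hP _ _
  obtain ⟨C2, h2⟩ := Cb_common (f := fun p : ι × ι × ι => F.c p.1 p.2.1 p.2.2) fun p => hc _ _ _
  obtain ⟨C3, h3⟩ := Cb_common hd
  refine ⟨fun k => max (max (max (C1 k) (C2 k)) (max (C3 k) (C k))) (max S |S'|),
    fun a b => CBs_mono (h1 (a, b)) fun k => by simp,
    fun a b l => CBs_mono (h2 (a, b, l)) fun k => by simp,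
    fun a => CBs_mono (h3 a) fun k => by simp, fun f hf hc => ?_, fun f hf hc x => ?_,
    fun K hK => ?_⟩
  · exact (h4 f hf hc (subset_univ _)).trans
      (mul_le_mul_of_nonneg_right (by simp) (F.ip_nonneg 1 f))
  · refine (hs f hf hc (subset_univ _) x).trans ?_
    exact mul_le_mul ((le_abs_self _).trans (by simp)) (ip_mono _ (by norm_num) f)
      (F.ip_nonneg 3 f) ((abs_nonneg S').trans (by simp))
  · obtain ⟨χ, k1, k2⟩ := hex K hK
    exact ⟨χ, CBs_mono k1 fun k => by simp, k2⟩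

/-- **every frame on a closed manifold of dimension `≤ 4` is tame** -/
theorem exists_tame [CompactSpace M] (F : Fr I M ι) (hn : Module.finrank ℝ E ≤ 4) :
    ∃ C, F.Tame C := by
  obtain ⟨S, -, h4⟩ := l4On F.toPre hn isCompact_univ
  obtain ⟨S', -, hs⟩ := supOn F.toPre hn isCompact_univ
  refine tame_of (fun a b => Cb_of_compact (F.P_sm a b)) (fun a b l => Cb_of_compact (F.c_sm a b l))
    (fun a => Cb_of_compact (F.dv_sm a)) h4 hs (C := fun _ => ‖(1 : ℝ)‖) fun K _ => ?_
  exact ⟨fun _ => 1, ⟨contMDiff_const, fun k => CB_const k 1⟩, HasCompactSupport.of_compactSpace _,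
    fun _ => ⟨zero_le_one, le_rfl⟩, fun _ _ => rfl⟩

end Crest.Agent.X212.Cht98
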