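import Crest.Agent.R249.SReg3_352
import Crest.Agent.X212.Cht98.Br

-- ▼ part X212/Cht98/RegE
section

/-! Row 212, layer AN (helper98): weak solutions for a spanning frame and a density on an open
subset of a Euclidean space are smooth (reduction to `R249.SReg352.sys_reg`). -/

set_option autoImplicit false
set_option linter.unusedSectionVars false

open scoped ContDiff Topology ENNReal NNReal RealInnerProductSpace
open Set Filter Function MeasureTheory

noncomputable section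
namespace Crest.Agent.X212.Cht98
open Crest.Agent.R249.EV Crest.Agent.R249.SReg352

variable {F : Type} [NormedAddCommGroup F] [InnerProductSpace ℝ F] [FiniteDimensional ℝ F]
  [MeasurableSpace F] [BorelSpace F] {ι n κ : Type} [Fintype ι] [Fintype n] [Fintype κ]

/-- smooth dual coefficients of a smooth spanning family -/
theorem exists_dual {U : Set F} {w : ι → F → F} (hw : ∀ a, ContDiffOn ℝ ∞ (w a) U)
    (hsp : ∀ y ∈ U, Submodule.span ℝ (range fun a => w a y) = ⊤) (v : F) :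
    ∃ l : ι → F → ℝ, (∀ a, ContDiffOn ℝ ∞ (l a) U) ∧ ∀ y ∈ U, ∑ a, l a y • w a y = v := by
  let G : F → F →L[ℝ] F := fun y => ∑ a, (innerSL ℝ (w a y)).smulRight (w a y)
  have hG : ContDiffOn ℝ ∞ G U := ContDiffOn.sum fun a _ =>
    ((innerSL ℝ (E := F)).contDiff.comp_contDiffOn (hw a)).smulRight (hw a)
  have hGa : ∀ y z, G y z = ∑ a, ⟪w a y, z⟫ • w a y := fun y z => by simp [G]
  have hinv : ∀ y ∈ U, (G y).IsInvertible := by
    intro y hy
    have hinj : Injective (G y) := by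
      refine (injective_iff_map_eq_zero _).2 fun z hz => ?_
      have h1 : ∑ a, ⟪w a y, z⟫ ^ 2 = 0 := by
        have h2 := congrArg (fun t => ⟪t, z⟫) hz
        simp only [hGa, sum_inner, real_inner_smul_left, inner_zero_left] at h2
        simpa only [sq] using h2
      have h3 : ∀ a, ⟪w a y, z⟫ = 0 := fun a => pow_eq_zero_iff (two_ne_zero) |>.1
        ((Finset.sum_eq_zero_iff_of_nonneg fun _ _ => sq_nonneg _).1 h1 a (Finset.mem_univ a))
      have h4 : (innerSL ℝ z : F →ₗ[ℝ] ℝ) = 0 :=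
        LinearMap.ext_on_range (hsp y hy) fun a => by simpa [real_inner_comm] using h3 a
      have h5 : ⟪z, z⟫ = 0 := congrArg (fun L : F →ₗ[ℝ] ℝ => L z) h4
      exact inner_self_eq_zero.1 h5
    exact ⟨(LinearEquiv.ofInjectiveEndo (G y : F →ₗ[ℝ] F) hinj).toContinuousLinearEquiv,
      by ext z; rfl⟩
  have hI : ContDiffOn ℝ ∞ (fun y => (G y).inverse) U := fun y hy =>
    ((hinv y hy).contDiffAt_map_inverse (n := ∞)).comp_contDiffWithinAt y (hG y hy)
  refine ⟨fun a y => ⟪w a y, (G y).inverse v⟫, fun a => (hw a).inner ℝ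
    (hI.clm_apply contDiffOn_const), fun y hy => ?_⟩
  rw [← hGa]
  exact (hinv y hy).self_apply_inverse v

theorem TO.int {U : Set F} {φ : F → ℝ} (h : TO U φ) : Integrable φ := h.1.integrable

theorem TO.sum {U : Set F} {α : Type} (s : Finset α) {φ : α → F → ℝ} (h : ∀ i, TO U (φ i)) :
    TO U fun y => ∑ i ∈ s, φ i y := by
  classical
  induction s using Finset.induction_on with
  | empty =>
    simp only [Finset.sum_empty]
    exact ⟨⟨contDiff_const, HasCompactSupport.zero⟩, by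
      have : tsupport (fun _ : F => (0 : ℝ)) = ∅ := tsupport_zero
      rw [this]; exact empty_subset _⟩
  | insert a s ha ih =>
    simp only [Finset.sum_insert ha]
    exact (h a).add ih

theorem TO.diffAt {U : Set F} {φ : F → ℝ} (h : TO U φ) (y : F) : DifferentiableAt ℝ φ y :=
  h.1.1.differentiable (by simp) y

theorem integral_dd {U : Set F} (hU : IsOpen U) {φ : F → ℝ} (h : TO U φ) (d : F) :
    ∫ y, dd d φ y = 0 := by
  have h1 := ibp_on hU (g := fun _ => (1 : ℝ)) contDiffOn_const h d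
  simpa [dd] using h1

theorem dd_mul_at (d : F) {f g : F → ℝ} {y : F} (hf : DifferentiableAt ℝ f y)
    (hg : DifferentiableAt ℝ g y) :
    dd d (fun y => f y * g y) y = dd d f y * g y + f y * dd d g y := by
  unfold dd
  rw [fderiv_fun_mul hf hg]
  simp only [add_apply, smul_apply, smul_eq_mul]
  ring

theorem L2on.mul_on {U : Set F} (hU : IsOpen U) {a u : F → ℝ} (ha : ContinuousOn a U)
    (h : L2on U u) : L2on U fun y => a y * u y := by
  refine ⟨h.1.continuousOn_mul ha hU.isLocallyClosed, ?_⟩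
  have h2 := h.2.continuousOn_mul (ha.pow 2) hU.isLocallyClosed
  simpa only [mul_pow, Pi.pow_apply] using h2

theorem L2on.add {U : Set F} {u v : F → ℝ} (h : L2on U u) (h' : L2on U v) :
    L2on U fun y => u y + v y := by
  refine ⟨h.1.add h'.1, fun y hy => ?_⟩
  have h1 := (h.2 y hy).add (h'.2 y hy)
  obtain ⟨s, hs, h2⟩ := h1.eventually.and ((h.1 y hy).add (h'.1 y hy)).eventually |>.exists_mem_of_smallSets
  refine ⟨s, hs, Integrable.mono' (h2.1.const_mul 2) (h2.2.1.pow 2)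
    (Eventually.of_forall fun z => ?_)⟩
  rw [Real.norm_eq_abs, abs_of_nonneg (sq_nonneg _)]
  show (u z + v z) ^ 2 ≤ 2 * (u z ^ 2 + v z ^ 2)
  nlinarith [sq_nonneg (u z - v z)]

theorem L2on.sum {U : Set F} {α : Type} (s : Finset α) {u : α → F → ℝ} (h : ∀ i, L2on U (u i)) :
    L2on U fun y => ∑ i ∈ s, u i y := by
  classical
  induction s using Finset.induction_on with
  | empty =>
    simp only [Finset.sum_empty]
    exact ⟨(locallyIntegrable_const (0 : ℝ)).locallyIntegrableOn U, by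
      simpa using (locallyIntegrable_const (0 : ℝ)).locallyIntegrableOn U⟩
  | insert a s ha ih =>
    simp only [Finset.sum_insert ha]
    exact L2on.add (h a) ih

/-- divergence of the field with components `X i` -/
def dvg (b : n → F) (X : n → F → ℝ) (y : F) : ℝ := ∑ i, dd (b i) (X i) y

section main
variable {U : Set F} (hU : IsOpen U) (b : OrthonormalBasis n ℝ F) {w : ι → F → F}
  (hw : ∀ a, ContDiffOn ℝ ∞ (w a) U) {ρ : F → ℝ} (hρ : ContDiffOn ℝ ∞ ρ U)
  (hρp : ∀ y ∈ U, 0 < ρ y) {d : ι → F → ℝ} (hd : ∀ a, ContDiffOn ℝ ∞ (d a) U)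

theorem fderiv_eq_sum (ψ : F → ℝ) (y v : F) :
    fderiv ℝ ψ y v = ∑ i, ⟪b i, v⟫ * dd (b i) ψ y := by
  conv_lhs => rw [← b.sum_repr' v, map_sum]
  simp only [map_smul, smul_eq_mul, dd]

include hU hw hρ hρp hd

/-- the formal adjoint of the frame derivative is the divergence -/
theorem adj_eq (hibp : ∀ a ψ, TO U ψ →
      ∫ y, ρ y * (fderiv ℝ ψ y (w a y) + d a y * ψ y) = 0) (a : ι) {ψ : F → ℝ} (hψ : TO U ψ)
    (y : F) : ρ y * (fderiv ℝ ψ y (w a y) + d a y * ψ y) =
      dvg b (fun i y => ρ y * ⟪b i, w a y⟫ * ψ y) y := by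
  have hE : ∀ i, ContDiffOn ℝ ∞ (fun y => ρ y * ⟪b i, w a y⟫) U :=
    fun i => hρ.mul (contDiffOn_const.inner ℝ (hw a))
  have h1 : ∀ {ψ : F → ℝ}, TO U ψ → ∀ y, dvg b (fun i y => ρ y * ⟪b i, w a y⟫ * ψ y) y =
      ρ y * fderiv ℝ ψ y (w a y) + dvg b (fun i y => ρ y * ⟪b i, w a y⟫) y * ψ y := by
    intro ψ hψ y
    by_cases hy : y ∈ U
    · simp only [dvg, fderiv_eq_sum b ψ y, Finset.mul_sum, Finset.sum_mul,
        ← Finset.sum_add_distrib]
      refine Finset.sum_congr rfl fun i _ => ?_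
      rw [dd_mul_at _ (((hE i).contDiffAt (hU.mem_nhds hy)).differentiableAt (by simp))
        (TO.diffAt hψ y)]
      ring
    · have h2 : ∀ i, dd (b i) (fun y => ρ y * ⟪b i, w a y⟫ * ψ y) y = 0 :=
        fun i => ((hψ.mul_on hU (hE i)).dd (b i)).zero_off hy
      have h3 : ∀ i, dd (b i) ψ y = 0 := fun i => (hψ.dd (b i)).zero_off hy
      simp only [dvg, h2, fderiv_eq_sum b ψ y, h3, hψ.zero_off hy, mul_zero,
        Finset.sum_const_zero, add_zero]
  have hD : ContinuousOn (dvg b fun i y => ρ y * ⟪b i, w a y⟫) U :=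
    continuousOn_finsetSum _ fun i _ => (contDiffOn_dd hU (hE i) _).continuousOn
  have hR : ContinuousOn (fun y => ρ y * d a y) U := (hρ.mul (hd a)).continuousOn
  have h4 : ∀ y ∈ U, ρ y * d a y = dvg b (fun i y => ρ y * ⟪b i, w a y⟫) y := by
    refine eqOn_of_ae hU hR hD (ae_eq_of_pair hU (locInt_contOn hU hR) (locInt_contOn hU hD)
      fun φ hφ => ?_)
    have h5 : ∫ y, dvg b (fun i y => ρ y * ⟪b i, w a y⟫ * φ y) y = 0 := by
      unfold dvg
      rw [integral_finsetSum _ fun i _ => TO.int ((hφ.mul_on hU (hE i)).dd (b i))]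
      exact Finset.sum_eq_zero fun i _ => integral_dd hU (hφ.mul_on hU (hE i)) _
    have i1 := integrable_mul_test (locInt_contOn hU hR) hφ
    have i2 := integrable_mul_test (locInt_contOn hU hD) hφ
    have i3 : Integrable fun y => ρ y * fderiv ℝ φ y (w a y) := by
      simp only [fderiv_eq_sum b φ, Finset.mul_sum, ← mul_assoc]
      exact integrable_finsetSum _ fun i _ => TO.int ((hφ.dd (b i)).mul_on hU (hE i))
    have h6 := hibp a φ hφ
    simp only [mul_add, ← mul_assoc] at h6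
    simp only [h1 hφ] at h5
    rw [integral_add i3 i1] at h6
    rw [integral_add i3 i2] at h5
    linarith
  rw [h1 hψ, mul_add, ← mul_assoc]
  by_cases hy : y ∈ U
  · rw [h4 y hy]
  · rw [hψ.zero_off hy, mul_zero, mul_zero]

/-- weak frame derivatives, tested without the density -/
theorem weak_dvg (hibp : ∀ a ψ, TO U ψ →
      ∫ y, ρ y * (fderiv ℝ ψ y (w a y) + d a y * ψ y) = 0) (a : ι) {u v : F → ℝ}
    (h : ∀ ψ, TO U ψ → ∫ y, v y * (ρ y * ψ y) =
      -∫ y, u y * (ρ y * (fderiv ℝ ψ y (w a y) + d a y * ψ y))) {ψ : F → ℝ} (hψ : TO U ψ) :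
    ∫ y, v y * ψ y = -∫ y, u y * dvg b (fun i y => ⟪b i, w a y⟫ * ψ y) y := by
  have hi : ContDiffOn ℝ ∞ (fun y => (ρ y)⁻¹) U := hρ.inv fun y hy => (hρp y hy).ne'
  have h1 := h _ (hψ.mul_on hU hi)
  have h2 : ∀ y, ρ y * ((ρ y)⁻¹ * ψ y) = ψ y := fun y => by
    by_cases hy : y ∈ U
    · rw [← mul_assoc, mul_inv_cancel₀ (hρp y hy).ne', one_mul]
    · rw [hψ.zero_off hy, mul_zero, mul_zero]
  simp only [adj_eq hU b hw hρ hρp hd hibp a (hψ.mul_on hU hi), h2] at h1
  have h3 : (fun i y => ρ y * ⟪b i, w a y⟫ * ((ρ y)⁻¹ * ψ y)) =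
      fun i y => ⟪b i, w a y⟫ * ψ y := by
    funext i y
    rw [mul_right_comm, h2, mul_comm]
  rwa [h3] at h1

/-- **regularity in a Euclidean chart** -/
theorem reg_euc (hsp : ∀ y ∈ U, Submodule.span ℝ (range fun a => w a y) = ⊤)
    (hibp : ∀ a ψ, TO U ψ → ∫ y, ρ y * (fderiv ℝ ψ y (w a y) + d a y * ψ y) = 0)
    {B : ι → κ → κ → F → ℝ} (hB : ∀ a α β, ContDiffOn ℝ ∞ (B a α β) U)
    {C : κ → κ → F → ℝ} (hC : ∀ α β, ContDiffOn ℝ ∞ (C α β) U)
    {f : κ → F → ℝ} (hf : ∀ α, ContDiffOn ℝ ∞ (f α) U)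
    {u : κ → F → ℝ} {v : ι → κ → F → ℝ} (hu : ∀ α, L2on U (u α)) (hv : ∀ a α, L2on U (v a α))
    (hW : ∀ a α ψ, TO U ψ → ∫ y, v a α y * (ρ y * ψ y) =
      -∫ y, u α y * (ρ y * (fderiv ℝ ψ y (w a y) + d a y * ψ y)))
    (heq : ∀ α ψ, TO U ψ → ∑ a, ∫ y, v a α y * (ρ y * fderiv ℝ ψ y (w a y)) =
      ∫ y, ((∑ a, ∑ β, B a α β y * v a β y) + (∑ β, C α β y * u β y) + f α y) * (ρ y * ψ y)) :
    ∃ s : κ → F → ℝ, (∀ α, ContDiffOn ℝ ∞ (s α) U) ∧
      ∀ α, ∀ᵐ y ∂(volume : Measure F), y ∈ U → s α y = u α y := by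
  classical
  let b := stdOrthonormalBasis ℝ F
  choose l hl hl' using fun i => exists_dual hw hsp (b i)
  have hE : ∀ a i, ContDiffOn ℝ ∞ (fun y => ⟪b i, w a y⟫) U :=
    fun a i => contDiffOn_const.inner ℝ (hw a)
  let u' : Fin (Module.finrank ℝ F) → κ → F → ℝ := fun i α y => ∑ a, l i a y * v a α y
  have hu' : ∀ i α, L2on U (u' i α) :=
    fun i α => L2on.sum _ fun a => L2on.mul_on hU (hl i a).continuousOn (hv a α)
  have hlE : ∀ i j, ∀ y ∈ U, ∑ a, ⟪b j, w a y⟫ * l i a y = if j = i then 1 else 0 := by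
    intro i j y hy
    rw [← orthonormal_iff_ite.1 b.orthonormal j i, ← hl' i y hy, inner_sum]
    exact Finset.sum_congr rfl fun a _ => by rw [real_inner_smul_right, mul_comm]
  have hWD : ∀ i α, WDon U (b i) (u α) (u' i α) := by
    intro i α ψ hψ
    have hT : ∀ a, TO U fun y => l i a y * ψ y := fun a => hψ.mul_on hU (hl i a)
    have hT2 : ∀ a j, TO U fun y => ⟪b j, w a y⟫ * (l i a y * ψ y) :=
      fun a j => (hT a).mul_on hU (hE a j)
    have h1 : ∫ y, u' i α y * ψ y = ∑ a, ∫ y, v a α y * (l i a y * ψ y) := by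
      rw [← integral_finsetSum _ fun a _ => integrable_mul_test (hv a α).1 (hT a)]
      refine integral_congr_ae (Eventually.of_forall fun y => ?_)
      simp only [u', Finset.sum_mul]
      exact Finset.sum_congr rfl fun a _ => by ring
    have h2 : ∀ y, dd (b i) ψ y =
        ∑ a, dvg b (fun j y => ⟪b j, w a y⟫ * (l i a y * ψ y)) y := by
      intro y
      have h3 : ∀ j, ∑ a, dd (b j) (fun y => ⟪b j, w a y⟫ * (l i a y * ψ y)) y =
          if j = i then dd (b j) ψ y else 0 := by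
        intro j
        have h4 : (fun y => ∑ a, ⟪b j, w a y⟫ * (l i a y * ψ y)) =
            fun y => (if j = i then 1 else 0) * ψ y := by
          funext z
          by_cases hz : z ∈ U
          · rw [← hlE i j z hz, Finset.sum_mul]
            exact Finset.sum_congr rfl fun a _ => by ring
          · simp [hψ.zero_off hz]
        have h5 : ∑ a, dd (b j) (fun y => ⟪b j, w a y⟫ * (l i a y * ψ y)) y =
            dd (b j) (fun y => ∑ a, ⟪b j, w a y⟫ * (l i a y * ψ y)) y := by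
          unfold dd
          rw [fderiv_fun_sum fun a _ => TO.diffAt (hT2 a j) y, _root_.sum_apply]
        rw [h5, h4]
        split_ifs
        · simp only [one_mul]
        · simp [dd]
      simp only [dvg]
      rw [Finset.sum_comm]
      simp only [h3, Finset.sum_ite_eq', Finset.mem_univ, if_true]
    have h6 : ∀ a, Integrable fun y =>
        u α y * dvg b (fun j y => ⟪b j, w a y⟫ * (l i a y * ψ y)) y :=
      fun a => integrable_mul_test (hu α).1 (TO.sum _ fun j => (hT2 a j).dd (b j))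
    rw [h1, Finset.sum_congr rfl fun a _ =>
      weak_dvg hU b hw hρ hρp hd hibp a (hW a α) (hT a), Finset.sum_neg_distrib, neg_neg,
      ← integral_finsetSum _ fun a _ => h6 a]
    simp only [h2, Finset.mul_sum]
  have hvu : ∀ a α, ∀ᵐ y ∂(volume : Measure F), y ∈ U →
      v a α y = ∑ i, ⟪b i, w a y⟫ * u' i α y := by
    intro a α
    refine ae_eq_of_pair hU (hv a α).1
      (L2on.sum _ fun i => L2on.mul_on hU (hE a i).continuousOn (hu' i α)).1 fun ψ hψ => ?_
    have hT : ∀ i, TO U fun y => ⟪b i, w a y⟫ * ψ y := fun i => hψ.mul_on hU (hE a i)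
    rw [weak_dvg hU b hw hρ hρp hd hibp a (hW a α) hψ]
    simp only [dvg, Finset.mul_sum, Finset.sum_mul]
    rw [integral_finsetSum _ fun i _ => integrable_mul_test (hu α).1 ((hT i).dd (b i)),
      Finset.sum_congr rfl fun i _ => hWD i α _ (hT i), Finset.sum_neg_distrib, neg_neg,
      ← integral_finsetSum _ fun i _ => integrable_mul_test (hu' i α).1 (hT i)]
    refine integral_congr_ae (Eventually.of_forall fun y => ?_)
    exact Finset.sum_congr rfl fun i _ => by ring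
  have hall : ∀ᵐ y ∂(volume : Measure F), ∀ a α, y ∈ U →
      v a α y = ∑ i, ⟪b i, w a y⟫ * u' i α y :=
    ae_all_iff.2 fun a => ae_all_iff.2 fun α => hvu a α
  refine Exists.imp (fun s h => ⟨h.1, h.2.1⟩) (sys_reg (κ := κ) hU b
    (a := fun i j y => ρ y * ∑ a, ⟪b i, w a y⟫ * ⟪b j, w a y⟫)
    (fun i j => hρ.mul (ContDiffOn.sum fun a _ => (hE a i).mul (hE a j))) ?_
    (B := fun i α β y => ρ y * ∑ a, B a α β y * ⟪b i, w a y⟫)
    (fun i α β => hρ.mul (ContDiffOn.sum fun a _ => (hB a α β).mul (hE a i)))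
    (C := fun α β y => ρ y * C α β y) (fun α β => hρ.mul (hC α β))
    (f := fun α y => ρ y * f α y) (fun α => hρ.mul (hf α)) hu hu' hWD ?_)
  · intro y hy ξ hξ
    have h1 : ∑ i, ∑ j, (ρ y * ∑ a, ⟪b i, w a y⟫ * ⟪b j, w a y⟫) * ξ j * ξ i =
        ρ y * ∑ a, ⟪∑ i, ξ i • b i, w a y⟫ ^ 2 := by
      simp only [sum_inner, real_inner_smul_left, sq, Finset.mul_sum, Finset.sum_mul]
      rw [Finset.sum_congr rfl fun i _ => Finset.sum_comm, Finset.sum_comm]
      refine Finset.sum_congr rfl fun a _ => ?_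
      rw [Finset.sum_comm]
      exact Finset.sum_congr rfl fun i _ => Finset.sum_congr rfl fun j _ => by ring
    rw [h1]
    refine mul_pos (hρp y hy) (lt_of_le_of_ne (Finset.sum_nonneg fun _ _ => sq_nonneg _)
      fun h => hξ ?_)
    have h3 : ∀ a, ⟪∑ i, ξ i • b i, w a y⟫ = 0 := fun a => pow_eq_zero_iff (two_ne_zero) |>.1
      ((Finset.sum_eq_zero_iff_of_nonneg fun _ _ => sq_nonneg _).1 h.symm a (Finset.mem_univ a))
    have h4 : (innerSL ℝ (∑ i, ξ i • b i) : F →ₗ[ℝ] ℝ) = 0 :=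
      LinearMap.ext_on_range (hsp y hy) fun a => h3 a
    have h5 : ⟪∑ i, ξ i • b i, ∑ i, ξ i • b i⟫ = 0 :=
      congrArg (fun L : F →ₗ[ℝ] ℝ => L (∑ i, ξ i • b i)) h4
    exact funext (Fintype.linearIndependent_iff.1 b.orthonormal.linearIndependent ξ
      (inner_self_eq_zero.1 h5))
  · intro α ψ hψ
    have hT : ∀ a, TO U fun y => ρ y * fderiv ℝ ψ y (w a y) := fun a => by
      simp only [fderiv_eq_sum b ψ]
      exact (TO.sum _ fun i => (hψ.dd (b i)).mul_on hU (hE a i)).mul_on hU hρ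
    have hI : ∀ i, Integrable fun y =>
        (∑ j, (ρ y * ∑ a, ⟪b i, w a y⟫ * ⟪b j, w a y⟫) * u' j α y) * dd (b i) ψ y :=
      fun i => integrable_mul_test (L2on.sum _ fun j => L2on.mul_on hU
        (hρ.mul (ContDiffOn.sum fun a _ => (hE a i).mul (hE a j))).continuousOn (hu' j α)).1
        (hψ.dd (b i))
    have h1 := heq α ψ hψ
    rw [← integral_finsetSum _ fun a _ => integrable_mul_test (hv a α).1 (hT a)] at h1
    rw [← integral_finsetSum _ fun i _ => hI i]
    refine (integral_congr_ae ?_).trans (h1.trans (integral_congr_ae ?_))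
    · filter_upwards [hall] with y hy
      by_cases hyU : y ∈ U
      · simp only [fun a => hy a α hyU, fderiv_eq_sum b ψ y, Finset.mul_sum, Finset.sum_mul]
        rw [Finset.sum_congr rfl fun i _ => Finset.sum_comm, Finset.sum_comm]
        refine Finset.sum_congr rfl fun a _ => ?_
        exact Finset.sum_congr rfl fun i _ => Finset.sum_congr rfl fun j _ => by ring
      · simp [fderiv_eq_sum b ψ y, fun i => (hψ.dd (b i)).zero_off hyU]
    · filter_upwards [hall] with y hy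
      by_cases hyU : y ∈ U
      · have h2 : ∑ i, ∑ β, (ρ y * ∑ a, B a α β y * ⟪b i, w a y⟫) * u' i β y =
            ρ y * ∑ a, ∑ β, B a α β y * v a β y := by
          simp only [fun a β => hy a β hyU, Finset.mul_sum, Finset.sum_mul]
          rw [Finset.sum_congr rfl fun i _ => Finset.sum_comm, Finset.sum_comm]
          refine Finset.sum_congr rfl fun a _ => ?_
          rw [Finset.sum_comm]
          exact Finset.sum_congr rfl fun β _ => Finset.sum_congr rfl fun i _ => by ring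
        have h3 : ∑ β, ρ y * C α β y * u β y = ρ y * ∑ β, C α β y * u β y := by
          simp only [Finset.mul_sum, mul_assoc]
        rw [h2, h3]
        ring
      · simp [hψ.zero_off hyU]

end main

end Crest.Agent.X212.Cht98
end
end

-- ▼ part X212/Cht98/Reg

/-! Row 212, layer AN (helper98): **weak solutions are smooth** in the format `An.Fr`. -/

set_option autoImplicit false
set_option linter.unusedSectionVars false

open scoped Manifold ContDiff Topology ENNReal NNReal InnerProductSpace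
open Set Filter Function MeasureTheory

noncomputable section
namespace Crest.Agent.X212.Cht98
open Crest.Agent.X212.Sob92 Crest.Agent.X212.An
open Crest.Agent.R249.EV Crest.Agent.R249.SReg352

section chart
variable {E H : Type} [NormedAddCommGroup E] [NormedSpace ℝ E] [TopologicalSpace H]
  {I : ModelWithCorners ℝ E H} {M : Type} [TopologicalSpace M] [ChartedSpace H M]
  [MeasurableSpace M] [BorelSpace M] [T2Space M]
  {F : Type} [NormedAddCommGroup F] [InnerProductSpace ℝ F] [FiniteDimensional ℝ F]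
  [MeasurableSpace F] [BorelSpace F]
  {V : Type} [NormedAddCommGroup V] [NormedSpace ℝ V] {μ : Measure M} (c : Ch I μ F)

theorem Ch.ae_of_ae {P : F → Prop} (h : ∀ᵐ y ∂(volume : Measure F), P y) :
    ∀ᵐ x ∂μ, x ∈ c.φ.source → P (c.φ x) := by
  obtain ⟨N, hN, hNm, hN0⟩ := exists_measurable_superset_of_null (ae_iff.1 h)
  have hm : MeasurableSet (c.φ.source ∩ c.φ ⁻¹' N) := by
    have h1 := c.φ.open_source.measurableSet.subtype_image
      (c.φ.continuousOn.domRestrict.measurable hNm)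
    convert h1 using 1
    ext x
    constructor
    · rintro ⟨h2, h3⟩
      exact ⟨⟨x, h2⟩, h3, rfl⟩
    · rintro ⟨⟨z, h2⟩, h3, rfl⟩
      exact ⟨h2, h3⟩
  have h0 : μ (c.φ.source ∩ c.φ ⁻¹' N) = 0 := by
    rw [c.μ_apply hm inter_subset_left]
    refine lintegral_eq_zero_of_ae_eq_zero ?_
    rw [EventuallyEq, ae_restrict_iff' c.φ.open_target.measurableSet]
    filter_upwards [measure_eq_zero_iff_ae_notMem.1 hN0] with y hy hyt
    have h2 : c.φ.symm y ∉ c.φ.source ∩ c.φ ⁻¹' N := fun h3 => hy (by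
      have h4 : c.φ (c.φ.symm y) ∈ N := h3.2
      rwa [c.φ.right_inv hyt] at h4)
    simp [indicator_of_notMem h2]
  filter_upwards [measure_eq_zero_iff_ae_notMem.1 h0] with x hx hxs
  by_contra h2
  exact hx ⟨hxs, hN h2⟩

theorem Ch.memLp_loc {L : Set F} (hL : IsCompact L) (hLs : L ⊆ c.φ.target) {u : M → V}
    {p : ℝ≥0∞} (hu : MemLp u p (μ.restrict (c.φ.symm '' L))) :
    MemLp (fun y => u (c.φ.symm y)) p ((volume : Measure F).restrict L) := by
  have hK := c.simg_cpt hL hLs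
  obtain ⟨C, -, h⟩ := c.cmp hK (c.simg_sub hLs)
  have h1 : MemLp u p (c.ν.restrict (c.φ.symm '' L)) :=
    (hu.smul_measure (c := (C : ℝ≥0∞)) ENNReal.coe_ne_top).mono_measure h
  rw [Ch.ν, Measure.restrict_map_of_aemeasurable c.aem hK.measurableSet] at h1
  refine (h1.comp_of_map c.aem.restrict).mono_measure ?_
  calc (volume : Measure F).restrict L = ((volume : Measure F).restrict c.φ.target).restrict L := by
        rw [Measure.restrict_restrict hL.measurableSet, inter_eq_left.2 hLs]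
    _ ≤ _ := Measure.restrict_mono (subset_preimage_image _ _) le_rfl

theorem Ch.integral_supp {K : Set M} (hK : IsCompact K) (hKs : K ⊆ c.φ.source) {G : M → ℝ}
    (h0 : ∀ x ∉ K, G x = 0) (hG : AEStronglyMeasurable G (μ.restrict K)) {G' : F → ℝ}
    (h1 : ∀ y ∈ c.φ.target, G' y = c.ρ y * G (c.φ.symm y)) (h2 : ∀ y ∉ c.φ.target, G' y = 0) :
    ∫ x, G x ∂μ = ∫ y, G' y := by
  have h3 : K.indicator G = G := indicator_eq_self.2 fun x hx => by
    by_contra h
    exact hx (h0 x h)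
  have h4 : AEStronglyMeasurable G μ := by
    rw [← h3]
    exact (aestronglyMeasurable_indicator_iff hK.measurableSet).2 hG
  rw [← setIntegral_eq_integral_of_forall_compl_eq_zero (s := c.φ.source)
      fun x hx => h0 x fun h => hx (hKs h),
    ← setIntegral_eq_integral_of_forall_compl_eq_zero h2, c.integral_eq h4.restrict]
  exact setIntegral_congr_fun c.φ.open_target.measurableSet fun y hy => (h1 y hy).symm

/-- gluing of local smooth representatives -/
theorem glue_rep [SecondCountableTopology M] [μ.IsOpenPosMeasure] {U : Set M} {u : M → V}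
    (h : ∀ x ∈ U, ∃ W, IsOpen W ∧ x ∈ W ∧ W ⊆ U ∧ ∃ w : M → V, ContMDiffOn I 𝓘(ℝ, V) ∞ w W ∧
      ∀ᵐ y ∂μ, y ∈ W → u y = w y) :
    ∃ w : M → V, ContMDiffOn I 𝓘(ℝ, V) ∞ w U ∧ ∀ᵐ y ∂μ, y ∈ U → u y = w y := by
  classical
  choose! W hW hx hWU w hw hae using h
  have key : ∀ x ∈ U, ∀ z ∈ W x, w z z = w x z := by
    intro x hxU z hz
    have hzU := hWU x hxU hz
    refine Measure.eqOn_open_of_ae_eq (μ := μ) ?_ ((hW z hzU).inter (hW x hxU))
      ((hw z hzU).continuousOn.mono inter_subset_left)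
      ((hw x hxU).continuousOn.mono inter_subset_right) ⟨hx z hzU, hz⟩
    rw [EventuallyEq, ae_restrict_iff' ((hW z hzU).inter (hW x hxU)).measurableSet]
    filter_upwards [hae z hzU, hae x hxU] with y h1 h2 hy
    rw [← h1 hy.1, h2 hy.2]
  refine ⟨fun z => w z z, fun x hxU => ?_, ?_⟩
  · have hn := (hW x hxU).mem_nhds (hx x hxU)
    refine (((hw x hxU).contMDiffAt hn).congr_of_eventuallyEq ?_).contMDiffWithinAt
    filter_upwards [hn] with z hz using key x hxU z hz
  · rw [ae_iff]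
    refine measure_null_of_locally_null _ fun x hxs => ?_
    have hxU : x ∈ U := by
      by_contra h
      exact hxs fun h' => absurd h' h
    refine ⟨_, inter_mem_nhdsWithin _ ((hW x hxU).mem_nhds (hx x hxU)), ?_⟩
    refine measure_mono_null (fun y hy => ?_) (ae_iff.1 (hae x hxU))
    intro h1
    exact hy.1 fun _ => (h1 hy.2).trans (key x hxU y hy.2).symm

end chart

variable {E : Type} [NormedAddCommGroup E] [NormedSpace ℝ E] [FiniteDimensional ℝ E]
  [MeasurableSpace E] [BorelSpace E]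
  {HM : Type} [TopologicalSpace HM] {I : ModelWithCorners ℝ E HM} [I.Boundaryless]
  {M : Type} [TopologicalSpace M] [ChartedSpace HM M] [IsManifold I ∞ M]
  [MeasurableSpace M] [BorelSpace M] [T2Space M] [SecondCountableTopology M]
  {ι : Type} [Fintype ι]
  {V : Type} [NormedAddCommGroup V] [InnerProductSpace ℝ V] [FiniteDimensional ℝ V]

/-- square integrable on the compact subsets of `U` -/
def L2loc (μ : Measure M) (U : Set M) (u : M → V) : Prop :=
  ∀ K, IsCompact K → K ⊆ U → MemLp u 2 (μ.restrict K)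

theorem L2loc.of_memLp {μ : Measure M} {u : M → V} (h : MemLp u 2 μ) (U : Set M) : L2loc μ U u :=
  fun K _ _ => h.restrict K

/-- **weak solutions are smooth**, local form -/
theorem reg_on (F : Fr I M ι) {U : Set M} (hU : IsOpen U) {u : M → V} {ua : ι → M → V}
    (hu : L2loc F.μ U u) (hua : ∀ a, L2loc F.μ U (ua a))
    {B : ι → M → V →L[ℝ] V} {B0 : M → V →L[ℝ] V} {f : M → V}
    (hB : ∀ a, ContMDiffOn I 𝓘(ℝ, V →L[ℝ] V) ∞ (B a) U)
    (hB0 : ContMDiffOn I 𝓘(ℝ, V →L[ℝ] V) ∞ B0 U) (hf : ContMDiffOn I 𝓘(ℝ, V) ∞ f U)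
    (hW : ∀ a (φ : M → V), Sm I φ → HasCompactSupport φ → tsupport φ ⊆ U →
      ∫ x, ⟪ua a x, φ x⟫_ℝ ∂F.μ = -∫ x, ⟪u x, F.D a φ x + F.dv a x • φ x⟫_ℝ ∂F.μ)
    (heq : ∀ φ : M → V, Sm I φ → HasCompactSupport φ → tsupport φ ⊆ U →
      ∑ a, ∫ x, ⟪ua a x, F.D a φ x⟫_ℝ ∂F.μ =
        ∫ x, ⟪∑ a, B a x (ua a x) + B0 x (u x) + f x, φ x⟫_ℝ ∂F.μ) :
    ∃ w : M → V, ContMDiffOn I 𝓘(ℝ, V) ∞ w U ∧ ∀ᵐ x ∂F.μ, x ∈ U → u x = w x := by
  have := openPos F.toPre
  refine glue_rep fun x₀ hx₀ => ?_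
  obtain ⟨c, hc⟩ := atl F.toPre x₀
  set T := c.φ.target ∩ c.φ.symm ⁻¹' U with hTdef
  have hT : IsOpen T := c.φ.isOpen_inter_preimage_symm hU
  have hTt : T ⊆ c.φ.target := inter_subset_left
  let o := stdOrthonormalBasis ℝ V
  have loc : ∀ {N : Type} [NormedAddCommGroup N] [NormedSpace ℝ N] {g : M → N},
      ContMDiffOn I 𝓘(ℝ, N) ∞ g U → ContDiffOn ℝ ∞ (fun y => g (c.φ.symm y)) T :=
    fun hg y hy => (c.locAt hy.1 (hg.contMDiffAt (hU.mem_nhds hy.2))).contDiffWithinAt
  have himg : ∀ L ⊆ T, c.φ.symm '' L ⊆ U := by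
    rintro L hL _ ⟨y, hy, rfl⟩
    exact (hL hy).2
  have hL2 : ∀ {g : M → V}, L2loc F.μ U g → ∀ α,
      L2on T fun y => ⟪o α, g (c.φ.symm y)⟫_ℝ := by
    intro g hg α
    have h1 : ∀ L ⊆ T, IsCompact L → MemLp (fun y => ⟪o α, g (c.φ.symm y)⟫_ℝ) 2
        (volume.restrict L) := fun L hL hLc =>
      (innerSL ℝ (o α)).comp_memLp' (c.memLp_loc hLc (hL.trans hTt)
        (hg _ (c.simg_cpt hLc (hL.trans hTt)) (himg L hL)))
    refine ⟨(locallyIntegrableOn_iff hT.isLocallyClosed).2 fun L hL hLc => ?_,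
      (locallyIntegrableOn_iff hT.isLocallyClosed).2 fun L hL hLc => (h1 L hL hLc).integrable_sq⟩
    have : IsFiniteMeasure ((volume : Measure (Eu E)).restrict L) :=
      isFiniteMeasure_restrict.2 hLc.measure_lt_top.ne
    exact (h1 L hL hLc).integrable one_le_two
  -- test functions
  have tst : ∀ {N : Type} [NormedAddCommGroup N] [NormedSpace ℝ N] {ψ : Eu E → ℝ}, TO T ψ →
      ∀ v : N, Sm I (c.pb fun y => ψ y • v) ∧ HasCompactSupport (c.pb fun y => ψ y • v) ∧
        tsupport (c.pb fun y => ψ y • v) ⊆ c.φ.symm '' tsupport ψ ∧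
        (∀ y ∈ c.φ.target, c.pb (fun y => ψ y • v) (c.φ.symm y) = ψ y • v) ∧
        ∀ a, ∀ y ∈ c.φ.target, F.D a (c.pb fun y => ψ y • v) (c.φ.symm y) =
          fderiv ℝ ψ y (c.vf (F.e a) y) • v := by
    intro N _ _ ψ hψ v
    have hs : support (fun y => ψ y • v) ⊆ tsupport ψ :=
      (support_smul_subset_left _ _).trans (subset_tsupport _)
    have hLs := hψ.2.trans hTt
    refine ⟨c.pb_smooth hψ.1.2.isCompact hLs hs (hψ.1.1.smul contDiff_const),
      c.pb_hcs hψ.1.2.isCompact hLs hs, c.tsupport_pb hψ.1.2.isCompact hLs hs, fun y hy => ?_,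
      fun a y hy => ?_⟩
    · rw [c.pb_of_mem _ (c.φ.map_target hy), c.φ.right_inv hy]
    · rw [Pre.D_def, c.dv_pb _ hy ((TO.diffAt hψ y).smul_const v),
        fderiv_smul_const (TO.diffAt hψ y)]
      rfl
  have hoff : ∀ {ψ : Eu E → ℝ}, TO T ψ → ∀ y ∉ c.φ.target, ψ y = 0 ∧ fderiv ℝ ψ y = 0 :=
    fun hψ y hy => ⟨hψ.zero_off fun h => hy h.1, by
      by_contra h
      exact hy (hψ.2 (support_fderiv_subset ℝ h)).1⟩
  -- pairing with a test function
  have pair : ∀ {ψ : Eu E → ℝ}, TO T ψ → ∀ {g φ : M → V} {r : Eu E → ℝ} (α),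
      AEStronglyMeasurable g (F.μ.restrict (c.φ.symm '' tsupport ψ)) → Continuous φ →
      tsupport φ ⊆ c.φ.symm '' tsupport ψ → (∀ y ∈ c.φ.target, φ (c.φ.symm y) = r y • o α) →
      (∀ y ∉ c.φ.target, r y = 0) →
      ∫ x, ⟪g x, φ x⟫_ℝ ∂F.μ = ∫ y, ⟪o α, g (c.φ.symm y)⟫_ℝ * (c.ρ y * r y) := by
    intro ψ hψ g φ r α hg hφ hs h1 h2
    refine c.integral_supp (c.simg_cpt hψ.1.2.isCompact (hψ.2.trans hTt))
      (c.simg_sub (hψ.2.trans hTt)) (fun x hx => ?_) (hg.inner hφ.aestronglyMeasurable)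
      (fun y hy => ?_) fun y hy => by rw [h2 y hy, mul_zero, mul_zero]
    · rw [image_eq_zero_of_notMem_tsupport fun h => hx (hs h), inner_zero_right]
    · rw [h1 y hy, real_inner_smul_right, real_inner_comm]
      ring
  have hK : ∀ {ψ : Eu E → ℝ}, TO T ψ → IsCompact (c.φ.symm '' tsupport ψ) ∧
      c.φ.symm '' tsupport ψ ⊆ U :=
    fun hψ => ⟨c.simg_cpt hψ.1.2.isCompact (hψ.2.trans hTt), himg _ hψ.2⟩
  refine Exists.elim (reg_euc (κ := Fin (Module.finrank ℝ V)) hT
    (w := fun a => c.vf (F.e a)) (fun a => (c.vf_on (F.sm a)).mono hTt) (c.ρs.mono hTt)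
    (fun y hy => c.ρp y hy.1) (d := fun a y => F.dv a (c.φ.symm y))
    (fun a => loc (F.dv_sm a).contMDiffOn) (fun y hy => c.vf_span F.span hy.1) ?_
    (B := fun a α β y => ⟪o α, B a (c.φ.symm y) (o β)⟫_ℝ)
    (fun a α β => contDiffOn_const.inner ℝ ((loc (hB a)).clm_apply contDiffOn_const))
    (C := fun α β y => ⟪o α, B0 (c.φ.symm y) (o β)⟫_ℝ)
    (fun α β => contDiffOn_const.inner ℝ ((loc hB0).clm_apply contDiffOn_const))
    (f := fun α y => ⟪o α, f (c.φ.symm y)⟫_ℝ) (fun α => contDiffOn_const.inner ℝ (loc hf))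
    (hL2 hu) (fun a => hL2 (hua a)) ?_ ?_) ?_
  rotate_left 3
  · rintro s ⟨hs, hsu⟩
    refine ⟨c.φ.source ∩ U, c.φ.open_source.inter hU, ⟨hc, hx₀⟩, inter_subset_right,
      fun x => ∑ α, s α (c.φ x) • o α, ?_, ?_⟩
    · refine contMDiffOn_finsetSum fun α _ => ?_
      refine ((hs α).smul_const (o α)).contMDiffOn.comp (c.sm.mono inter_subset_left) fun x hx =>
        ⟨c.φ.map_source hx.1, ?_⟩
      show c.φ.symm (c.φ x) ∈ U
      rw [c.φ.left_inv hx.1]
      exact hx.2
    · filter_upwards [c.ae_of_ae (ae_all_iff.2 hsu)] with x hx hxW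
      have h1 : c.φ x ∈ T := ⟨c.φ.map_source hxW.1, by
        show c.φ.symm (c.φ x) ∈ U
        rw [c.φ.left_inv hxW.1]
        exact hxW.2⟩
      simp only [fun α => hx hxW.1 α h1, c.φ.left_inv hxW.1]
      exact (o.sum_repr' (u x)).symm
  · intro a ψ hψ
    obtain ⟨h1, h2, h3, h4, h5⟩ := tst hψ (1 : ℝ)
    have h6 := F.ibp a _ h1 h2
    have h7 := (F.sm_D h1 a).continuous
    have h8 : Continuous fun x => F.dv a x * c.pb (fun y => ψ y • (1 : ℝ)) x :=
      (F.dv_sm a).continuous.mul h1.continuous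
    rw [eq_neg_iff_add_eq_zero, ← integral_add
      (h7.integrable_of_hasCompactSupport (F.hcs_D h2 a))
      (h8.integrable_of_hasCompactSupport h2.mul_left)] at h6
    rw [← h6]
    refine (c.integral_supp (hK hψ).1 (c.simg_sub (hψ.2.trans hTt)) (fun x hx => ?_)
      (h7.add h8).aestronglyMeasurable (fun y hy => ?_) fun y hy => ?_).symm
    · rw [Pi.add_apply, image_eq_zero_of_notMem_tsupport fun h => hx (h3 (F.tsupport_D _ a h)),
        image_eq_zero_of_notMem_tsupport fun h => hx (h3 h), mul_zero, add_zero]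
    · rw [Pi.add_apply, h4 y hy, h5 a y hy]
      simp only [smul_eq_mul, mul_one]
    · simp [hoff hψ y hy]
  · intro a α ψ hψ
    obtain ⟨h1, h2, h3, h4, h5⟩ := tst hψ (o α)
    have h6 := hW a _ h1 h2 (h3.trans (hK hψ).2)
    rw [pair hψ α (hua a _ (hK hψ).1 (hK hψ).2).1 h1.continuous h3 h4 fun y hy => (hoff hψ y hy).1,
      pair hψ (r := fun y => fderiv ℝ ψ y (c.vf (F.e a) y) + F.dv a (c.φ.symm y) * ψ y)
        (φ := fun x => F.D a (c.pb fun y => ψ y • o α) x + F.dv a x • c.pb (fun y => ψ y • o α) x) α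
        (hu _ (hK hψ).1 (hK hψ).2).1
        ((F.sm_D h1 a).continuous.add ((F.dv_sm a).continuous.smul h1.continuous))
        ((closure_minimal (fun x hx => ?_) (isClosed_tsupport _)).trans h3)
        (fun y hy => by rw [h4 y hy, h5 a y hy, add_smul, mul_smul])
        fun y hy => by simp [hoff hψ y hy]] at h6
    · exact h6
    · by_contra h
      exact hx (by
        beta_reduce
        rw [image_eq_zero_of_notMem_tsupport fun h' => h (F.tsupport_D _ a h'),
          image_eq_zero_of_notMem_tsupport h, smul_zero, add_zero])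
  · intro α ψ hψ
    obtain ⟨h1, h2, h3, h4, h5⟩ := tst hψ (o α)
    have h6 := heq _ h1 h2 (h3.trans (hK hψ).2)
    have hm := (hK hψ).1.measurableSet
    have m1 : ∀ {A : M → V →L[ℝ] V} {g : M → V}, ContMDiffOn I 𝓘(ℝ, V →L[ℝ] V) ∞ A U →
        L2loc F.μ U g → AEStronglyMeasurable (fun x => A x (g x))
          (F.μ.restrict (c.φ.symm '' tsupport ψ)) := fun hA hg =>
      (isBoundedBilinearMap_apply (𝕜 := ℝ) (E := V) (F := V)).continuous.comp_aestronglyMeasurable
        (((hA.continuousOn.mono (hK hψ).2).aestronglyMeasurable hm).prodMk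
          (hg _ (hK hψ).1 (hK hψ).2).1)
    rw [pair hψ (g := fun x => ∑ a, B a x (ua a x) + B0 x (u x) + f x) α (((Finset.aestronglyMeasurable_fun_sum _ fun a _ => m1 (hB a) (hua a)).add
        (m1 hB0 hu)).add ((hf.continuousOn.mono (hK hψ).2).aestronglyMeasurable hm))
        h1.continuous h3 h4 fun y hy => (hoff hψ y hy).1,
      Finset.sum_congr rfl fun a _ => pair hψ (r := fun y => fderiv ℝ ψ y (c.vf (F.e a) y)) α
        (hua a _ (hK hψ).1 (hK hψ).2).1 (F.sm_D h1 a).continuous ((F.tsupport_D _ a).trans h3)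
        (h5 a) fun y hy => by simp [hoff hψ y hy]] at h6
    refine h6.trans (integral_congr_ae (Eventually.of_forall fun y => ?_))
    have h7 : ∀ (A : V →L[ℝ] V) (v : V), ⟪o α, A v⟫_ℝ = ∑ β, ⟪o α, A (o β)⟫_ℝ * ⟪o β, v⟫_ℝ := by
      intro A v
      conv_lhs => rw [← o.sum_repr' v, map_sum, inner_sum]
      exact Finset.sum_congr rfl fun β _ => by rw [map_smul, real_inner_smul_right, mul_comm]
    simp only [inner_add_right, inner_sum, ← h7]

/-- **weak solutions are smooth** -/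
theorem reg (F : Fr I M ι) {u : M → V} {ua : ι → M → V} (hu : MemLp u 2 F.μ)
    (hua : ∀ a, MemLp (ua a) 2 F.μ) {B : ι → M → V →L[ℝ] V} {B0 : M → V →L[ℝ] V} {f : M → V}
    (hB : ∀ a, Sm I (B a)) (hB0 : Sm I B0) (hf : Sm I f)
    (hW : ∀ a (φ : M → V), Sm I φ → HasCompactSupport φ →
      ∫ x, ⟪ua a x, φ x⟫_ℝ ∂F.μ = -∫ x, ⟪u x, F.D a φ x + F.dv a x • φ x⟫_ℝ ∂F.μ)
    (heq : ∀ φ : M → V, Sm I φ → HasCompactSupport φ →
      ∑ a, ∫ x, ⟪ua a x, F.D a φ x⟫_ℝ ∂F.μ =
        ∫ x, ⟪∑ a, B a x (ua a x) + B0 x (u x) + f x, φ x⟫_ℝ ∂F.μ) :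
    ∃ w : M → V, Sm I w ∧ u =ᵐ[F.μ] w := by
  obtain ⟨w, hw, h⟩ := reg_on F isOpen_univ (L2loc.of_memLp hu _)
    (fun a => L2loc.of_memLp (hua a) _) (fun a => (hB a).contMDiffOn) hB0.contMDiffOn
    hf.contMDiffOn (fun a φ h1 h2 _ => hW a φ h1 h2) fun φ h1 h2 _ => heq φ h1 h2
  exact ⟨w, contMDiffOn_univ.1 hw, h.mono fun x hx => hx (mem_univ x)⟩

end Crest.Agent.X212.Cht98
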